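import Vale.Agent.P098.Seven.Fields
import Vale.Agent.P098.Regularity.Flatness.Basic

/-!
P098, the dimension seven: a calibration of potential form proves global minimality among all
Sobolev competitors.
-/

open MeasureTheory Filter Metric
open scoped Topology ContDiff NNReal RealInnerProductSpace Gradient

namespace Vale.Agent.P098.Seven

variable {d : ℕ} {u v G : Euc d → ℝ} {g : Fin d → Euc d → ℝ} {a K : Euc d → Euc d} {A : ℝ}

/-- The divergence of a vector field. -/
noncomputable def divv (b : Euc d → Euc d) (x : Euc d) : ℝ := ∑ i, pd i (fun y => b y i) x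

/-- A calibration of potential form for `u`: the field `a + t K` dominates the energy, with slack
`G` vanishing where `u` does, and is tight on the graph of `u`. -/
structure IsCalibration (u G : Euc d → ℝ) (a K : Euc d → Euc d) (A : ℝ) : Prop where
  lip_u : ∃ L, LipschitzWith L u
  nonneg : ∀ x, 0 ≤ u x
  lip_a : ∀ i, LocallyLipschitzOn ({0}ᶜ : Set (Euc d)) fun x => a x i
  lip_K : ∀ i, LocallyLipschitzOn ({0}ᶜ : Set (Euc d)) fun x => K x i
  norm_a : ∀ x, x ≠ 0 → ‖a x‖ ≤ A
  norm_K : ∀ x, x ≠ 0 → ‖x‖ * ‖K x‖ ≤ A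
  G_nonneg : ∀ x, 0 ≤ G x
  G_zero : ∀ x, u x ≤ 0 → G x = 0
  below : ∀ᵐ x, ∀ t : ℝ, 0 < t →
    ‖a x + t • K x‖ ^ 2 + 2 * t * divv a x + t ^ 2 * divv K x ≤ 1 + G x
  grad_eq : ∀ᵐ x, 0 < u x → ∇ u x = a x + u x • K x
  tight : ∀ᵐ x, 0 < u x →
    ‖a x + u x • K x‖ ^ 2 + 2 * u x * divv a x + u x ^ 2 * divv K x = 1 + G x

/-- The energy density. -/
noncomputable def dens (w : Euc d → ℝ) (g : Fin d → Euc d → ℝ) (x : Euc d) : ℝ :=
  (∑ i, g i x ^ 2) + (posSet w).indicator 1 x

/-- The divergence of the potential along a function. -/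
noncomputable def flux (a K : Euc d → Euc d) (w : Euc d → ℝ) (g : Fin d → Euc d → ℝ) (x : Euc d) :
    ℝ :=
  ∑ i, (2 * (a x i + w x * K x i) * g i x + 2 * w x * pd i (fun y => a y i) x +
    w x ^ 2 * pd i (fun y => K y i) x)

/-- The potential in the direction `i`. -/
noncomputable def potential (a K : Euc d → Euc d) (w : Euc d → ℝ) (i : Fin d) (x : Euc d) : ℝ :=
  2 * (w x * a x i + w x ^ 2 / 2 * K x i)

lemma flux_eq (a K : Euc d → Euc d) (w : Euc d → ℝ) (g : Fin d → Euc d → ℝ) (x : Euc d) :
    flux a K w g x = (∑ i, 2 * (a x i + w x * K x i) * g i x) + 2 * w x * divv a x +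
      w x ^ 2 * divv K x := by
  simp only [flux, divv, Finset.sum_add_distrib, Finset.mul_sum]

lemma flux_le (x : Euc d) (w : Euc d → ℝ) (g : Fin d → Euc d → ℝ) :
    flux a K w g x ≤ (∑ i, g i x ^ 2) + ‖a x + w x • K x‖ ^ 2 + 2 * w x * divv a x +
      w x ^ 2 * divv K x := by
  rw [flux_eq, EuclideanSpace.real_norm_sq_eq, ← Finset.sum_add_distrib]
  simp only [PiLp.add_apply, PiLp.smul_apply, smul_eq_mul]
  gcongr with i
  nlinarith [sq_nonneg (g i x - (a x i + w x * K x i))]

namespace IsCalibration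

variable (h : IsCalibration u G a K A)
include h

/-- The excess of energy dominates the excess of flux. -/
lemma dens_sub_le {S : Set (Euc d)} (hv0 : ∀ᵐ x ∂volume.restrict S, 0 ≤ v x)
    (hgz : ∀ i, ∀ᵐ x ∂volume.restrict S, v x = 0 → g i x = 0) :
    ∀ᵐ x ∂volume.restrict S, flux a K v g x - flux a K u (fun i => pd i u) x ≤
      dens v g x - dens u (fun i => pd i u) x := by
  filter_upwards [hv0, ae_all_iff.2 hgz, ae_restrict_of_ae h.below, ae_restrict_of_ae h.grad_eq,
    ae_restrict_of_ae h.tight] with x hv hg hb he ht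
  have hpu : u x = 0 → ∀ i, pd i u x = 0 := fun hu i => pd_eq_zero_of_eq_zero h.nonneg hu i
  have key : 0 < u x →
      flux a K u (fun i => pd i u) x = dens u (fun i => pd i u) x + G x := fun hu => by
    have hc : ∀ i, pd i u x = a x i + u x * K x i := fun i => by
      rw [← gradient_coord, he hu]
      simp
    have e := ht hu
    rw [EuclideanSpace.real_norm_sq_eq] at e
    simp only [PiLp.add_apply, PiLp.smul_apply, smul_eq_mul] at e
    rw [flux_eq, dens, Set.indicator_of_mem (show x ∈ posSet u from hu), Pi.one_apply]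
    simp only [hc, mul_assoc, ← sq, ← Finset.mul_sum]
    linarith
  rcases eq_or_lt_of_le (h.nonneg x) with hu | hu
  · have hn : x ∉ posSet u := fun hp => (ne_of_gt hp) hu.symm
    have hG := h.G_zero x hu.ge
    simp only [flux_eq a K u, dens, Set.indicator_of_notMem hn, hpu hu.symm, ← hu]
    rcases eq_or_lt_of_le hv with hv | hv
    · have hvn : x ∉ posSet v := fun hp => (ne_of_gt hp) hv.symm
      simp [flux_eq, hg _ hv.symm, ← hv, Set.indicator_of_notMem hvn]
    · have h1 := hb (v x) hv
      have h2 := flux_le (a := a) (K := K) x v g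
      simp only [Set.indicator_of_mem (show x ∈ posSet v from hv), Pi.one_apply, mul_zero,
        zero_mul, zero_pow two_ne_zero, Finset.sum_const_zero, add_zero, sub_zero]
      linarith
  · rw [key hu]
    rcases eq_or_lt_of_le hv with hv | hv
    · have hvn : x ∉ posSet v := fun hp => (ne_of_gt hp) hv.symm
      have : dens v g x = 0 := by simp [dens, hg _ hv.symm, Set.indicator_of_notMem hvn]
      have h3 : flux a K v g x = 0 := by simp [flux_eq, hg _ hv.symm, ← hv]
      linarith [h.G_nonneg x]
    · have h1 := hb (v x) hv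
      have h2 := flux_le (a := a) (K := K) x v g
      simp only [dens, Set.indicator_of_mem (show x ∈ posSet v from hv), Pi.one_apply] at h1 h2 ⊢
      linarith

/-- The divergence identity against a test function supported off the origin. -/
lemma integral_flux {c : Euc d} {R M : ℝ} (hd : 1 ≤ d)
    (hvm : MemLp v 2 (volume.restrict (ball c R)))
    (hvb : ∀ᵐ x ∂volume.restrict (ball c R), |v x| ≤ M) (hg : HasWeakGrad (ball c R) v g)
    (hg2 : HasWeakGrad (ball c R) (fun x => v x ^ 2 / 2) fun i x => v x * g i x)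
    {θ : Euc d → ℝ} (hθ : ContDiff ℝ ∞ θ) (hθs : HasCompactSupport θ)
    (hθ0 : (0 : Euc d) ∉ tsupport θ) (hθsub : tsupport θ ⊆ ball c R) :
    IntegrableOn (fun x => θ x * flux a K v g x) (ball c R) ∧
    IntegrableOn (fun x => ∑ i, pd i θ x * potential a K v i x) (ball c R) ∧
      ∫ x in ball c R, θ x * flux a K v g x =
        -∫ x in ball c R, ∑ i, pd i θ x * potential a K v i x := by
  have := isFiniteMeasure_restrict (isBounded_ball : Bornology.IsBounded (ball c R))
  have hM : ∀ᵐ x ∂volume.restrict (ball c R), |v x ^ 2 / 2| ≤ M ^ 2 / 2 := hvb.mono fun x hx => by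
    rw [abs_div, abs_pow, abs_two]
    gcongr
  have hsm : MemLp (fun x => v x ^ 2 / 2) 2 (volume.restrict (ball c R)) :=
    MemLp.of_bound ((hvm.1.pow 2).mul_const (2⁻¹ : ℝ)) _ hM |>.ae_eq
      (Eventually.of_forall fun x => rfl)
  choose Da hDa using fun i => exists_lipschitz_mul (h.lip_a i) hθ hθs hθ0
  choose DK hDK using fun i => exists_lipschitz_mul (h.lip_K i) hθ hθs hθ0
  have hpθ : ∀ i, (0 : Euc d) ∉ tsupport (pd i θ) := fun i hh =>
    hθ0 (tsupport_fderiv_apply_subset ℝ _ hh)
  choose Ea hEa using fun i => exists_lipschitz_mul (h.lip_a i)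
    (contDiff_pd_infty hθ i) (hasCompactSupport_pd hθs i) (hpθ i)
  choose EK hEK using fun i => exists_lipschitz_mul (h.lip_K i)
    (contDiff_pd_infty hθ i) (hasCompactSupport_pd hθs i) (hpθ i)
  have hsubm : ∀ f : Euc d → ℝ, tsupport (fun x => θ x * f x) ⊆ ball c R := fun f =>
    tsupport_mul_subset_left.trans hθsub
  have Ia := fun i => integral_lipschitz_test hvm hvb hg (hDa i)
    hθs.mul_right (hsubm _) i
  have IK := fun i => integral_lipschitz_test hsm hM hg2 (hDK i)
    hθs.mul_right (hsubm _) i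
  have hb1 : ∀ {F b : Euc d → ℝ} (C : ℝ), MemLp F 2 (volume.restrict (ball c R)) →
      AEStronglyMeasurable b (volume.restrict (ball c R)) → (∀ x, |b x| ≤ C) →
        IntegrableOn (fun x => F x * b x) (ball c R) := fun {F b} C hF hb hC =>
    (hF.integrable one_le_two).mul_bdd hb (Eventually.of_forall hC)
  have hcb : ∀ {b : Euc d → ℝ} {D : ℝ≥0}, LipschitzWith D b → HasCompactSupport b →
      ∃ C, ∀ x, |b x| ≤ C := fun hb hs => hb.continuous.bounded_above_of_compact_support hs
  have j1 : ∀ i, IntegrableOn (fun x => g i x * (θ x * a x i)) (ball c R) := fun i => by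
    obtain ⟨C, hC⟩ := hcb (hDa i) hθs.mul_right
    exact hb1 C (hg.1 i) (hDa i).continuous.aestronglyMeasurable hC
  have j2 : ∀ i, IntegrableOn (fun x => v x * g i x * (θ x * K x i)) (ball c R) := fun i => by
    obtain ⟨C, hC⟩ := hcb (hDK i) hθs.mul_right
    exact hb1 C (hg2.1 i) (hDK i).continuous.aestronglyMeasurable hC
  have j3 : ∀ i, IntegrableOn (fun x => v x * pd i (fun y => θ y * a y i) x) (ball c R) := fun i =>
    hb1 _ hvm (measurable_pd _ i).aestronglyMeasurable (abs_pd_le (hDa i) i)
  have j4 : ∀ i, IntegrableOn (fun x => v x ^ 2 / 2 * pd i (fun y => θ y * K y i) x) (ball c R) :=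
    fun i => hb1 _ hsm (measurable_pd _ i).aestronglyMeasurable (abs_pd_le (hDK i) i)
  have j5 : ∀ i, IntegrableOn (fun x => v x * (pd i θ x * a x i)) (ball c R) := fun i => by
    obtain ⟨C, hC⟩ := hcb (hEa i) (hasCompactSupport_pd hθs i).mul_right
    exact hb1 C hvm (hEa i).continuous.aestronglyMeasurable hC
  have j6 : ∀ i, IntegrableOn (fun x => v x ^ 2 / 2 * (pd i θ x * K x i)) (ball c R) := fun i => by
    obtain ⟨C, hC⟩ := hcb (hEK i) (hasCompactSupport_pd hθs i).mul_right
    exact hb1 C hsm (hEK i).continuous.aestronglyMeasurable hC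
  set X : Fin d → Euc d → ℝ := fun i x => 2 * (g i x * (θ x * a x i)) +
    2 * (v x * g i x * (θ x * K x i)) + 2 * (v x * pd i (fun y => θ y * a y i) x) +
    2 * (v x ^ 2 / 2 * pd i (fun y => θ y * K y i) x) with hX
  set Y : Fin d → Euc d → ℝ := fun i x => pd i θ x * potential a K v i x with hY
  have hY' : ∀ i x, Y i x = 2 * (v x * (pd i θ x * a x i)) +
      2 * (v x ^ 2 / 2 * (pd i θ x * K x i)) := fun i x => by
    simp only [hY, potential]; ring
  have hXi : ∀ i, IntegrableOn (X i) (ball c R) := fun i =>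
    ((((j1 i).const_mul 2).add ((j2 i).const_mul 2)).add ((j3 i).const_mul 2)).add
      ((j4 i).const_mul 2)
  have hX0 : ∀ i, ∫ x in ball c R, X i x = 0 := fun i => by
    simp only [hX]
    rw [integral_add ((((j1 i).const_mul 2).fun_add ((j2 i).const_mul 2)).fun_add
        ((j3 i).const_mul 2)) ((j4 i).const_mul 2),
      integral_add (((j1 i).const_mul 2).fun_add ((j2 i).const_mul 2)) ((j3 i).const_mul 2),
      integral_add ((j1 i).const_mul 2) ((j2 i).const_mul 2), integral_const_mul,
      integral_const_mul, integral_const_mul, integral_const_mul, Ia i, IK i]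
    ring
  have hYi : ∀ i, IntegrableOn (Y i) (ball c R) := fun i =>
    ((((j5 i).const_mul 2).add ((j6 i).const_mul 2))).congr
      (Eventually.of_forall fun x => (hY' i x).symm)
  have hda := ae_all_iff.2 fun i => ae_differentiableAt (h.lip_a i)
  have hdK := ae_all_iff.2 fun i => ae_differentiableAt (h.lip_K i)
  have : Nontrivial (Euc d) := Module.nontrivial_of_finrank_pos (R := ℝ) (by simp; omega)
  have hne : ∀ᵐ x : Euc d, x ≠ 0 :=
    ae_iff.2 (by simp)
  have heq : (fun x => θ x * flux a K v g x) =ᵐ[volume.restrict (ball c R)]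
      fun x => (∑ i, X i x) - ∑ i, Y i x := by
    filter_upwards [ae_restrict_of_ae hda, ae_restrict_of_ae hdK, ae_restrict_of_ae hne]
      with x ha hK hx
    rw [← Finset.sum_sub_distrib, flux, Finset.mul_sum]
    refine Finset.sum_congr rfl fun i _ => ?_
    rw [hY', hX]
    simp only
    rw [pd_mul i (hθ.differentiable (by simp) x) (ha i hx),
      pd_mul i (hθ.differentiable (by simp) x) (hK i hx)]
    ring
  have hXs : IntegrableOn (fun x => ∑ i, X i x) (ball c R) :=
    integrable_finsetSum _ fun i _ => hXi i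
  have hYs : IntegrableOn (fun x => ∑ i, Y i x) (ball c R) :=
    integrable_finsetSum _ fun i _ => hYi i
  refine ⟨(hXs.sub hYs).congr heq.symm, hYs, ?_⟩
  rw [integral_congr_ae heq, integral_sub hXs hYs, integral_finsetSum _ fun i _ => hXi i]
  simp [hX0, hY]

/-- The comparison for a bounded competitor with a squared gradient. -/
lemma core (hd : 3 ≤ d) {c : Euc d} {R rin M : ℝ} (hin : 0 < rin) (hR : rin < R)
    {K₀ : Set (Euc d)} (hK₀ : IsClosed K₀) (hK₀s : K₀ ⊆ ball c rin)
    (hvm : MemLp v 2 (volume.restrict (ball c R)))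
    (hv : ∀ᵐ x ∂volume.restrict (ball c R), 0 ≤ v x ∧ v x ≤ M)
    (huM : ∀ x ∈ ball c R, u x ≤ M)
    (hg : HasWeakGrad (ball c R) v g)
    (hg2 : HasWeakGrad (ball c R) (fun x => v x ^ 2 / 2) fun i x => v x * g i x)
    (hu2 : HasWeakGrad (ball c R) (fun x => u x ^ 2 / 2) fun i x => u x * pd i u x)
    (hgz : ∀ i, ∀ᵐ x ∂volume.restrict (ball c R), v x = 0 → g i x = 0)
    (hveq : ∀ᵐ x ∂volume.restrict (ball c R), x ∉ K₀ → v x = u x ∧ ∀ i, g i x = pd i u x) :
    IntegrableOn (dens v g) (ball c R) ∧
      ∫ x in ball c R, dens u (fun i => pd i u) x ≤ ∫ x in ball c R, dens v g x := by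
  have := isFiniteMeasure_restrict (isBounded_ball : Bornology.IsBounded (ball c R))
  obtain ⟨L, hL⟩ := h.lip_u
  have hum : MemLp u 2 (volume.restrict (ball c R)) := memLp_lipschitz hL c R
  have hM0 : 0 ≤ M := (h.nonneg c).trans (huM c (mem_ball_self (hin.trans hR)))
  have hvb : ∀ᵐ x ∂volume.restrict (ball c R), |v x| ≤ M := hv.mono fun x hx => by
    rw [abs_of_nonneg hx.1]; exact hx.2
  have hub : ∀ᵐ x ∂volume.restrict (ball c R), |u x| ≤ M :=
    (ae_restrict_mem measurableSet_ball).mono fun x hx => by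
      rw [abs_of_nonneg (h.nonneg x)]; exact huM x hx
  have hug := hasWeakGrad_pd hL (isBounded_ball (x := c) (r := R))
  have hind : ∀ {w : Euc d → ℝ}, MemLp w 2 (volume.restrict (ball c R)) →
      IntegrableOn ((posSet w).indicator 1 : Euc d → ℝ) (ball c R) := fun {w} hw =>
    (integrable_const (1 : ℝ)).mono
      (aestronglyMeasurable_const.indicator₀
        (nullMeasurableSet_lt aemeasurable_const hw.1.aemeasurable))
      (Eventually.of_forall fun x => norm_indicator_le_norm_self _ _)
  have hdv : IntegrableOn (dens v g) (ball c R) := (integrableOn_sum_sq hg.1).add (hind hvm)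
  have hdu : IntegrableOn (dens u fun i => pd i u) (ball c R) :=
    (integrableOn_sum_sq hug.1).add (hind hum)
  refine ⟨hdv, ?_⟩
  set δ : Euc d → ℝ := fun x => dens v g x - dens u (fun i => pd i u) x with hδ
  have hδi : IntegrableOn δ (ball c R) := hdv.sub hdu
  set B : ContDiffBump c := ⟨rin, (rin + R) / 2, hin, by linarith⟩
  have hBsub : tsupport (B : Euc d → ℝ) ⊆ ball c R := by
    rw [B.tsupport_eq]
    exact closedBall_subset_ball (by show (rin + R) / 2 < R; linarith)
  have hB1 : ∀ x ∈ K₀, (B : Euc d → ℝ) =ᶠ[𝓝 x] fun _ => 1 := fun x hx => by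
    filter_upwards [isOpen_ball.mem_nhds (hK₀s hx)] with y hy
    exact B.one_of_mem_closedBall (ball_subset_closedBall hy)
  obtain ⟨P, hP0, hP⟩ := exists_pd_holeCut_le d
  have hA : 0 ≤ A := by
    have : Nontrivial (Euc d) := Module.nontrivial_of_finrank_pos (R := ℝ) (by simp; omega)
    obtain ⟨y, hy⟩ := exists_ne (0 : Euc d)
    exact (norm_nonneg _).trans (h.norm_a y hy)
  set V := volume.real (ball (0 : Euc d) 1)
  set err : ℝ → ℝ := fun r => d * (P / r * (2 * (M * A + M ^ 2 / 2 * (A / r)))) * 2 *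
    ((2 * r) ^ d * V) with herr
  have main : ∀ r : ℝ, 0 < r →
      -err r ≤ ∫ x in ball c R, (holeCut r x * B x) * δ x := by
    intro r hr
    set θ : Euc d → ℝ := fun x => holeCut r x * B x with hθ
    have hθc : ContDiff ℝ ∞ θ := (contDiff_holeCut r).mul B.contDiff
    have hθs : HasCompactSupport θ := B.hasCompactSupport.mul_left
    have hθ0 : (0 : Euc d) ∉ tsupport θ := fun hh =>
      notMem_tsupport_holeCut hr (tsupport_mul_subset_left hh)
    have hθsub : tsupport θ ⊆ ball c R := tsupport_mul_subset_right.trans hBsub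
    obtain ⟨iv, jv, ev⟩ := h.integral_flux (by omega) hvm hvb hg hg2 hθc hθs hθ0 hθsub
    obtain ⟨iu, ju, eu⟩ := h.integral_flux (by omega) hum hub hug hu2 hθc hθs hθ0 hθsub
    have hθI : ∀ x, θ x ∈ Set.Icc (0 : ℝ) 1 := fun x =>
      ⟨mul_nonneg (holeCut_mem r x).1 B.nonneg,
        mul_le_one₀ (holeCut_mem r x).2 B.nonneg B.le_one⟩
    have hθδ : IntegrableOn (fun x => θ x * δ x) (ball c R) :=
      hδi.bdd_mul hθc.continuous.aestronglyMeasurable (c := 1) (Eventually.of_forall fun x => by
        rw [Real.norm_eq_abs, abs_of_nonneg (hθI x).1]; exact (hθI x).2)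
    have h1 : ∫ x in ball c R, (θ x * flux a K v g x - θ x * flux a K u (fun i => pd i u) x) ≤
        ∫ x in ball c R, θ x * δ x := by
      refine integral_mono_ae (iv.sub iu) hθδ ?_
      filter_upwards [h.dens_sub_le (hv.mono fun x hx => hx.1) hgz] with x hx
      rw [← mul_sub]
      exact mul_le_mul_of_nonneg_left hx (hθI x).1
    rw [integral_sub iv iu, ev, eu] at h1
    set E : Euc d → ℝ := fun x => (∑ i, pd i θ x * potential a K v i x) -
      ∑ i, pd i θ x * potential a K u i x with hE
    set C := d * (P / r * (2 * (M * A + M ^ 2 / 2 * (A / r)))) * 2 with hC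
    have hC0 : 0 ≤ C := by positivity
    have hEb : ∀ᵐ x ∂volume.restrict (ball c R),
        E x ≤ (closedBall (0 : Euc d) (2 * r)).indicator (fun _ => C) x := by
      filter_upwards [hvb, hub, hveq] with x hxv hxu hx
      have hR0 : 0 ≤ (closedBall (0 : Euc d) (2 * r)).indicator (fun _ => C) x :=
        Set.indicator_nonneg (fun _ _ => hC0) x
      by_cases hxK : x ∈ K₀
      swap
      · simp only [hE, potential, (hx hxK).1, sub_self]
        exact hR0
      have e : ∀ i, pd i θ x = pd i (holeCut r) x := fun i =>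
        pd_congr (by filter_upwards [hB1 x hxK] with y hy; simp [hθ, hy]) i
      by_cases hxr : ‖x‖ ≤ 2 * r
      swap
      · simp only [hE, e, (hP r hr _ x).2 (not_le.1 hxr), zero_mul, Finset.sum_const_zero, sub_self]
        exact hR0
      rw [Set.indicator_of_mem (mem_closedBall_zero_iff.2 hxr)]
      by_cases hlt : ‖x‖ < r
      · have hz : ∀ i, pd i (holeCut r) x = 0 := fun i => pd_eq_zero_of_eventually (by
          filter_upwards [continuous_norm.continuousAt.eventually (gt_mem_nhds hlt)] with y hy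
          exact holeCut_zero hr (le_of_lt hy)) i
        simp only [hE, e, hz, zero_mul, Finset.sum_const_zero, sub_self]
        exact hC0
      have hxn : 0 < ‖x‖ := hr.trans_le (not_lt.1 hlt)
      have hx0 : x ≠ 0 := norm_pos_iff.1 hxn
      have hKr : ‖K x‖ ≤ A / r := by
        rw [le_div_iff₀ hr, mul_comm]
        exact (mul_le_mul_of_nonneg_right (not_lt.1 hlt) (norm_nonneg _)).trans (h.norm_K x hx0)
      have hp : ∀ (w : Euc d → ℝ), |w x| ≤ M → ∀ i,
          |pd i θ x * potential a K w i x| ≤ P / r * (2 * (M * A + M ^ 2 / 2 * (A / r))) := by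
        intro w hw i
        rw [abs_mul, e, potential, abs_mul, abs_two]
        refine mul_le_mul (hP r hr i x).1 (mul_le_mul_of_nonneg_left
          ((abs_add_le _ _).trans (add_le_add ?_ ?_)) zero_le_two) (by positivity) (by positivity)
        · rw [abs_mul]
          exact mul_le_mul hw ((PiLp.norm_apply_le (a x) i).trans (h.norm_a x hx0)) (abs_nonneg _)
            hM0
        · rw [abs_mul, abs_div, abs_pow, abs_two]
          exact mul_le_mul (by gcongr) ((PiLp.norm_apply_le (K x) i).trans hKr) (abs_nonneg _)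
            (by positivity)
      have hs : ∀ (w : Euc d → ℝ), |w x| ≤ M → |∑ i, pd i θ x * potential a K w i x| ≤
          d * (P / r * (2 * (M * A + M ^ 2 / 2 * (A / r)))) := fun w hw =>
        (Finset.abs_sum_le_sum_abs _ _).trans ((Finset.sum_le_card_nsmul _ _ _ fun i _ =>
          hp w hw i).trans (le_of_eq (by simp)))
      have s1 := abs_le.1 (hs v hxv)
      have s2 := abs_le.1 (hs u hxu)
      simp only [hE, hC]
      linarith [s1.2, s2.1]
    have hci : IntegrableOn ((closedBall (0 : Euc d) (2 * r)).indicator fun _ => C) (ball c R) :=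
      ((integrableOn_const measure_closedBall_lt_top.ne).integrable_indicator
        measurableSet_closedBall).integrableOn
    have h2 : ∫ x in ball c R, E x ≤ err r := by
      refine (integral_mono_ae (jv.sub ju) hci hEb).trans ?_
      refine (setIntegral_le_integral ((integrableOn_const measure_closedBall_lt_top.ne
        ).integrable_indicator measurableSet_closedBall) (Eventually.of_forall fun x =>
        Set.indicator_nonneg (fun _ _ => hC0) x)).trans (le_of_eq ?_)
      rw [integral_indicator_const _ measurableSet_closedBall, smul_eq_mul,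
        Measure.addHaar_real_closedBall volume _ (by positivity), finrank_euclideanSpace_fin,
        mul_comm]
    simp only [hE] at h2
    rw [integral_sub jv ju] at h2
    linarith
  have hlim : Tendsto (fun n : ℕ => ∫ x in ball c R, (holeCut (1 / ((n : ℝ) + 1)) x * B x) * δ x)
      atTop (𝓝 (∫ x in ball c R, δ x)) := by
    refine tendsto_integral_of_dominated_convergence (fun x => |δ x|)
      (fun n => ((contDiff_holeCut _).continuous.mul B.continuous).aestronglyMeasurable.mul hδi.1)
      hδi.abs (fun n => Eventually.of_forall fun x => ?_) ?_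
    · rw [norm_mul, norm_mul, Real.norm_eq_abs, Real.norm_eq_abs, Real.norm_eq_abs,
        abs_of_nonneg (holeCut_mem _ x).1, abs_of_nonneg B.nonneg]
      exact mul_le_of_le_one_left (abs_nonneg _)
        (mul_le_one₀ (holeCut_mem _ x).2 B.nonneg B.le_one)
    · have : Nontrivial (Euc d) := Module.nontrivial_of_finrank_pos (R := ℝ) (by simp; omega)
      have hne : ∀ᵐ x : Euc d, x ≠ 0 := ae_iff.2 (by simp)
      filter_upwards [hveq, ae_restrict_of_ae hne] with x hx hx0
      by_cases hxK : x ∈ K₀
      · refine tendsto_const_nhds.congr' ?_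
        filter_upwards [(tendsto_one_div_add_atTop_nhds_zero_nat (𝕜 := ℝ)).eventually
          (gt_mem_nhds (half_pos (norm_pos_iff.2 hx0)))] with n hn
        have hBx : (B : Euc d → ℝ) x = 1 := (hB1 x hxK).eq_of_nhds
        rw [holeCut_one (by positivity) (by linarith), hBx, one_mul, one_mul]
      · obtain ⟨a1, a2⟩ := hx hxK
        have : δ x = 0 := by simp [hδ, dens, posSet, a1, a2, Set.indicator_apply]
        simp [this]
  have herr0 : Tendsto (fun n : ℕ => -err (1 / ((n : ℝ) + 1))) atTop (𝓝 0) := by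
    set k1 := d * (P * (2 * (M * A))) * 2 * 2 ^ d * V
    set k2 := d * (P * (2 * (M ^ 2 / 2 * A))) * 2 * 2 ^ d * V
    have e : ∀ r : ℝ, 0 < r → err r = k1 * r ^ (d - 1) + k2 * r ^ (d - 2) := by
      intro r hr
      obtain ⟨m, rfl⟩ : ∃ m, d = m + 2 := ⟨d - 2, by omega⟩
      simp only [herr, k1, k2, show m + 2 - 1 = m + 1 by omega, Nat.add_sub_cancel, mul_pow,
        pow_add, pow_one]
      field_simp
    have hc : Tendsto (fun n : ℕ => -(k1 * (1 / ((n : ℝ) + 1)) ^ (d - 1) +
        k2 * (1 / ((n : ℝ) + 1)) ^ (d - 2))) atTop (𝓝 0) := by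
      have t := tendsto_one_div_add_atTop_nhds_zero_nat (𝕜 := ℝ)
      have := (((t.pow (d - 1)).const_mul k1).add ((t.pow (d - 2)).const_mul k2)).neg
      simpa [zero_pow (show d - 1 ≠ 0 by omega), zero_pow (show d - 2 ≠ 0 by omega)] using this
    exact hc.congr fun n => by rw [e _ (by positivity)]
  have h0 : 0 ≤ ∫ x in ball c R, δ x :=
    le_of_tendsto_of_tendsto' herr0 hlim fun n => main _ (by positivity)
  simp only [hδ] at h0
  rw [integral_sub hdv hdu] at h0
  linarith

end IsCalibration

end Vale.Agent.P098.Seven
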