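import Vale.Agent.P098.Seven.Profiles

/-!
P098, dimension seven: the signs of the profile expressions, by Bernstein expansions with
nonnegative coefficients on a few intervals.
-/

namespace Vale.Agent.P098.Seven

lemma inC_piece_0 {τ : ℝ} (h1 : 0 ≤ τ) (h2 : τ ≤ 1 / 2) : inC τ ≤ 0 := by
  have a0 : (0 : ℝ) ≤ τ := h1
  have b0 : 0 ≤ 1 / 2 - τ := sub_nonneg.2 h2
  have key : -inC τ = (576 / 625 : ℝ) * (1 / 2 - τ) ^ 5 +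
      (4576 / 625 : ℝ) * τ ^ 1 * (1 / 2 - τ) ^ 4 +
      (10744 / 625 : ℝ) * τ ^ 2 * (1 / 2 - τ) ^ 3 +
      (10008 / 625 : ℝ) * τ ^ 3 * (1 / 2 - τ) ^ 2 +
      (3686 / 625 : ℝ) * τ ^ 4 * (1 / 2 - τ) ^ 1 +
      (566 / 625 : ℝ) * τ ^ 5 := by
    simp only [inC, inD, pM, pN, pM', pN']
    ring
  rw [← neg_nonneg, key]
  positivity

lemma inC_piece_1 {τ : ℝ} (h1 : 1 / 2 ≤ τ) (h2 : τ ≤ 1) : inC τ ≤ 0 := by
  have a0 : 0 ≤ τ - 1 / 2 := sub_nonneg.2 h1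
  have b0 : 0 ≤ 1 - τ := sub_nonneg.2 h2
  have key : -inC τ = (566 / 625 : ℝ) * (1 - τ) ^ 5 +
      (1974 / 625 : ℝ) * (τ - 1 / 2) ^ 1 * (1 - τ) ^ 4 +
      (632 / 125 : ℝ) * (τ - 1 / 2) ^ 2 * (1 - τ) ^ 3 +
      (1224 / 125 : ℝ) * (τ - 1 / 2) ^ 3 * (1 - τ) ^ 2 +
      (9024 / 625 : ℝ) * (τ - 1 / 2) ^ 4 * (1 - τ) ^ 1 +
      (192 / 25 : ℝ) * (τ - 1 / 2) ^ 5 := by
    simp only [inC, inD, pM, pN, pM', pN']
    ring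
  rw [← neg_nonneg, key]
  positivity

theorem inC_sign {τ : ℝ} (h1 : 0 ≤ τ) (h2 : τ ≤ 1) : inC τ ≤ 0 := by
  rcases le_total τ (1 / 2) with k0 | g0
  · exact inC_piece_0 h1 k0
  exact inC_piece_1 g0 h2

lemma inG_piece_0 {τ : ℝ} (h1 : 0 ≤ τ) (h2 : τ ≤ 1) : 0 ≤ inG τ := by
  have a0 : (0 : ℝ) ≤ τ := h1
  have b0 : 0 ≤ 1 - τ := sub_nonneg.2 h2
  have key : inG τ = (7 / 25 : ℝ) * (1 - τ) ^ 3 +
      (52 / 25 : ℝ) * τ ^ 1 * (1 - τ) ^ 2 +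
      (29 / 5 : ℝ) * τ ^ 2 * (1 - τ) ^ 1 +
      (137 / 25 : ℝ) * τ ^ 3 := by
    simp only [inG, inD, pM, pN, pM', pN']
    ring
  rw [key]
  positivity

theorem inG_sign {τ : ℝ} (h1 : 0 ≤ τ) (h2 : τ ≤ 1) : 0 ≤ inG τ := by
  exact inG_piece_0 h1 h2

lemma outC_piece_0 {e : ℝ} (h1 : 0 ≤ e) (h2 : e ≤ 1 / 8) : outC e ≤ 0 := by
  have a0 : (0 : ℝ) ≤ e := h1
  have b0 : 0 ≤ 1 / 8 - e := sub_nonneg.2 h2
  have key : -outC e = (308281344 / 625 : ℝ) * (1 / 8 - e) ^ 7 +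
      (913833984 / 625 : ℝ) * e ^ 1 * (1 / 8 - e) ^ 6 +
      (2657394688 / 625 : ℝ) * e ^ 2 * (1 / 8 - e) ^ 5 +
      (8020074496 / 625 : ℝ) * e ^ 3 * (1 / 8 - e) ^ 4 +
      (12641397248 / 625 : ℝ) * e ^ 4 * (1 / 8 - e) ^ 3 +
      (9648700928 / 625 : ℝ) * e ^ 5 * (1 / 8 - e) ^ 2 +
      (3445459312 / 625 : ℝ) * e ^ 6 * (1 / 8 - e) ^ 1 +
      (476528084 / 625 : ℝ) * e ^ 7 := by
    simp only [outC, qM, qN, qM', qN']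
    ring
  rw [← neg_nonneg, key]
  positivity

lemma outC_piece_1 {e : ℝ} (h1 : 1 / 8 ≤ e) (h2 : e ≤ 1 / 4) : outC e ≤ 0 := by
  have a0 : 0 ≤ e - 1 / 8 := sub_nonneg.2 h1
  have b0 : 0 ≤ 1 / 4 - e := sub_nonneg.2 h2
  have key : -outC e = (476528084 / 625 : ℝ) * (1 / 4 - e) ^ 7 +
      (3225933864 / 625 : ℝ) * (e - 1 / 8) ^ 1 * (1 / 4 - e) ^ 6 +
      (1666309648 / 125 : ℝ) * (e - 1 / 8) ^ 2 * (1 / 4 - e) ^ 5 +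
      (10545916832 / 625 : ℝ) * (e - 1 / 8) ^ 3 * (1 / 4 - e) ^ 4 +
      (8419170752 / 625 : ℝ) * (e - 1 / 8) ^ 4 * (1 / 4 - e) ^ 3 +
      (7282230144 / 625 : ℝ) * (e - 1 / 8) ^ 5 * (1 / 4 - e) ^ 2 +
      (5852905216 / 625 : ℝ) * (e - 1 / 8) ^ 6 * (1 / 4 - e) ^ 1 +
      (2032676352 / 625 : ℝ) * (e - 1 / 8) ^ 7 := by
    simp only [outC, qM, qN, qM', qN']
    ring
  rw [← neg_nonneg, key]
  positivity

theorem outC_sign {e : ℝ} (h1 : 0 ≤ e) (h2 : e ≤ 1 / 4) : outC e ≤ 0 := by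
  rcases le_total e (1 / 8) with k0 | g0
  · exact outC_piece_0 h1 k0
  exact outC_piece_1 g0 h2

lemma outB_piece_0 {e : ℝ} (h1 : 0 ≤ e) (h2 : e ≤ 1 / 32) : outB e ≤ 0 := by
  have a0 : (0 : ℝ) ≤ e := h1
  have b0 : 0 ≤ 1 / 32 - e := sub_nonneg.2 h2
  have key : -outB e = (17179869184 / 25 : ℝ) * (1 / 32 - e) ^ 7 +
      (2107755200512 / 625 : ℝ) * e ^ 1 * (1 / 32 - e) ^ 6 +
      (4154827210752 / 625 : ℝ) * e ^ 2 * (1 / 32 - e) ^ 5 +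
      (4219436793856 / 625 : ℝ) * e ^ 3 * (1 / 32 - e) ^ 4 +
      (2417667473408 / 625 : ℝ) * e ^ 4 * (1 / 32 - e) ^ 3 +
      (892386085888 / 625 : ℝ) * e ^ 5 * (1 / 32 - e) ^ 2 +
      (275231489728 / 625 : ℝ) * e ^ 6 * (1 / 32 - e) ^ 1 +
      (57647239032 / 625 : ℝ) * e ^ 7 := by
    simp only [outB, qP, qQ, qM, qN, qP', qQ']
    ring
  rw [← neg_nonneg, key]
  positivity

lemma outB_piece_1 {e : ℝ} (h1 : 1 / 32 ≤ e) (h2 : e ≤ 1 / 16) : outB e ≤ 0 := by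
  have a0 : 0 ≤ e - 1 / 32 := sub_nonneg.2 h1
  have b0 : 0 ≤ 1 / 16 - e := sub_nonneg.2 h2
  have key : -outB e = (57647239032 / 625 : ℝ) * (1 / 16 - e) ^ 7 +
      (106365971344 / 125 : ℝ) * (e - 1 / 32) ^ 1 * (1 / 16 - e) ^ 6 +
      (486395257568 / 125 : ℝ) * (e - 1 / 32) ^ 2 * (1 / 16 - e) ^ 5 +
      (6133530930752 / 625 : ℝ) * (e - 1 / 32) ^ 3 * (1 / 16 - e) ^ 4 +
      (8818955943552 / 625 : ℝ) * (e - 1 / 32) ^ 4 * (1 / 16 - e) ^ 3 +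
      (7212048156416 / 625 : ℝ) * (e - 1 / 32) ^ 5 * (1 / 16 - e) ^ 2 +
      (625746532864 / 125 : ℝ) * (e - 1 / 32) ^ 6 * (1 / 16 - e) ^ 1 +
      (559905606656 / 625 : ℝ) * (e - 1 / 32) ^ 7 := by
    simp only [outB, qP, qQ, qM, qN, qP', qQ']
    ring
  rw [← neg_nonneg, key]
  positivity

lemma outB_piece_2 {e : ℝ} (h1 : 1 / 16 ≤ e) (h2 : e ≤ 1 / 8) : outB e ≤ 0 := by
  have a0 : 0 ≤ e - 1 / 16 := sub_nonneg.2 h1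
  have b0 : 0 ≤ 1 / 8 - e := sub_nonneg.2 h2
  have key : -outB e = (4374262552 / 625 : ℝ) * (1 / 8 - e) ^ 7 +
      (42973065712 / 625 : ℝ) * (e - 1 / 16) ^ 1 * (1 / 8 - e) ^ 6 +
      (172156065376 / 625 : ℝ) * (e - 1 / 16) ^ 2 * (1 / 8 - e) ^ 5 +
      (363470474688 / 625 : ℝ) * (e - 1 / 16) ^ 3 * (1 / 8 - e) ^ 4 +
      (87742465664 / 125 : ℝ) * (e - 1 / 16) ^ 4 * (1 / 8 - e) ^ 3 +
      (304735864064 / 625 : ℝ) * (e - 1 / 16) ^ 5 * (1 / 8 - e) ^ 2 +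
      (113570042368 / 625 : ℝ) * (e - 1 / 16) ^ 6 * (1 / 8 - e) ^ 1 +
      (17635709952 / 625 : ℝ) * (e - 1 / 16) ^ 7 := by
    simp only [outB, qP, qQ, qM, qN, qP', qQ']
    ring
  rw [← neg_nonneg, key]
  positivity

lemma outB_piece_3 {e : ℝ} (h1 : 1 / 8 ≤ e) (h2 : e ≤ 1 / 4) : outB e ≤ 0 := by
  have a0 : 0 ≤ e - 1 / 8 := sub_nonneg.2 h1
  have b0 : 0 ≤ 1 / 4 - e := sub_nonneg.2 h2
  have key : -outB e = (137778984 / 625 : ℝ) * (1 / 4 - e) ^ 7 +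
      (1118826752 / 625 : ℝ) * (e - 1 / 8) ^ 1 * (1 / 4 - e) ^ 6 +
      (3621649312 / 625 : ℝ) * (e - 1 / 8) ^ 2 * (1 / 4 - e) ^ 5 +
      (1212949504 / 125 : ℝ) * (e - 1 / 8) ^ 3 * (1 / 4 - e) ^ 4 +
      (5825367936 / 625 : ℝ) * (e - 1 / 8) ^ 4 * (1 / 4 - e) ^ 3 +
      (3449894912 / 625 : ℝ) * (e - 1 / 8) ^ 5 * (1 / 4 - e) ^ 2 +
      (257795584 / 125 : ℝ) * (e - 1 / 8) ^ 6 * (1 / 4 - e) ^ 1 +
      (242720768 / 625 : ℝ) * (e - 1 / 8) ^ 7 := by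
    simp only [outB, qP, qQ, qM, qN, qP', qQ']
    ring
  rw [← neg_nonneg, key]
  positivity

theorem outB_sign {e : ℝ} (h1 : 0 ≤ e) (h2 : e ≤ 1 / 4) : outB e ≤ 0 := by
  rcases le_total e (1 / 32) with k0 | g0
  · exact outB_piece_0 h1 k0
  rcases le_total e (1 / 16) with k1 | g1
  · exact outB_piece_1 g0 k1
  rcases le_total e (1 / 8) with k2 | g2
  · exact outB_piece_2 g1 k2
  exact outB_piece_3 g2 h2

lemma outS_piece_0 {e : ℝ} (h1 : 0 ≤ e) (h2 : e ≤ 1 / 16) : 0 ≤ outS e := by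
  have a0 : (0 : ℝ) ≤ e := h1
  have b0 : 0 ≤ 1 / 16 - e := sub_nonneg.2 h2
  have e0 : (0 : ℝ) ≤ e := le_trans (by norm_num) h1
  have key : outS e = e * ((436207616 / 25 : ℝ) * (1 / 16 - e) ^ 6 +
      (41945137152 / 625 : ℝ) * e ^ 1 * (1 / 16 - e) ^ 5 +
      (63181029376 / 625 : ℝ) * e ^ 2 * (1 / 16 - e) ^ 4 +
      (46692511744 / 625 : ℝ) * e ^ 3 * (1 / 16 - e) ^ 3 +
      (17599819776 / 625 : ℝ) * e ^ 4 * (1 / 16 - e) ^ 2 +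
      (3473219264 / 625 : ℝ) * e ^ 5 * (1 / 16 - e) ^ 1 +
      (425712208 / 625 : ℝ) * e ^ 6) := by
    simp only [outS, qP, qQ]
    ring
  rw [key]
  positivity

lemma outS_piece_1 {e : ℝ} (h1 : 1 / 16 ≤ e) (h2 : e ≤ 1 / 8) : 0 ≤ outS e := by
  have a0 : 0 ≤ e - 1 / 16 := sub_nonneg.2 h1
  have b0 : 0 ≤ 1 / 8 - e := sub_nonneg.2 h2
  have e0 : (0 : ℝ) ≤ e := le_trans (by norm_num) h1
  have key : outS e = e * ((425712208 / 625 : ℝ) * (1 / 8 - e) ^ 6 +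
      (1635327232 / 625 : ℝ) * (e - 1 / 16) ^ 1 * (1 / 8 - e) ^ 5 +
      (8410359616 / 625 : ℝ) * (e - 1 / 16) ^ 2 * (1 / 8 - e) ^ 4 +
      (23291229184 / 625 : ℝ) * (e - 1 / 16) ^ 3 * (1 / 8 - e) ^ 3 +
      (29735022336 / 625 : ℝ) * (e - 1 / 16) ^ 4 * (1 / 8 - e) ^ 2 +
      (17542275072 / 625 : ℝ) * (e - 1 / 16) ^ 5 * (1 / 8 - e) ^ 1 +
      (3898620928 / 625 : ℝ) * (e - 1 / 16) ^ 6) := by
    simp only [outS, qP, qQ]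
    ring
  rw [key]
  positivity

lemma outS_piece_2 {e : ℝ} (h1 : 1 / 8 ≤ e) (h2 : e ≤ 1 / 4) : 0 ≤ outS e := by
  have a0 : 0 ≤ e - 1 / 8 := sub_nonneg.2 h1
  have b0 : 0 ≤ 1 / 4 - e := sub_nonneg.2 h2
  have e0 : (0 : ℝ) ≤ e := le_trans (by norm_num) h1
  have key : outS e = e * ((60915952 / 625 : ℝ) * (1 / 4 - e) ^ 6 +
      (109658208 / 125 : ℝ) * (e - 1 / 8) ^ 1 * (1 / 4 - e) ^ 5 +
      (1859150976 / 625 : ℝ) * (e - 1 / 8) ^ 2 * (1 / 4 - e) ^ 4 +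
      (2946828544 / 625 : ℝ) * (e - 1 / 8) ^ 3 * (1 / 4 - e) ^ 3 +
      (2255593216 / 625 : ℝ) * (e - 1 / 8) ^ 4 * (1 / 4 - e) ^ 2 +
      (697417216 / 625 : ℝ) * (e - 1 / 8) ^ 5 * (1 / 4 - e) ^ 1 +
      (17760256 / 625 : ℝ) * (e - 1 / 8) ^ 6) := by
    simp only [outS, qP, qQ]
    ring
  rw [key]
  positivity

theorem outS_sign {e : ℝ} (h1 : 0 ≤ e) (h2 : e ≤ 1 / 4) : 0 ≤ outS e := by
  rcases le_total e (1 / 16) with k0 | g0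
  · exact outS_piece_0 h1 k0
  rcases le_total e (1 / 8) with k1 | g1
  · exact outS_piece_1 g0 k1
  exact outS_piece_2 g1 h2

end Vale.Agent.P098.Seven
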