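import Vale.Agent.P098.Regularity.B2.Chain

/-!
P098, dimension seven: the cone `u = (ρ - σ² / (4 ρ))₊ / √5`, with `ρ = |y|`, `σ = |z|`,
`x = (y, z) ∈ ℝ³ × ℝ⁴`, and the fields `a`, `K` of its calibration
`Φ (x, t) = 2 (a x t + K x t² / 2)`.

The fields are given by polynomials in `τ = 1 - σ² / (4 ρ²)` where `σ ≤ 2 ρ` and in
`e = 1/4 - ρ² / σ²` where `2 ρ ≤ σ`; the clipped radii `hatR`, `hatS` glue the two formulas.
-/

open MeasureTheory
open scoped Topology ContDiff NNReal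

namespace Vale.Agent.P098.Seven

/-- The part of `x` in `ℝ³`. -/
noncomputable def yPart (x : Euc 7) : Euc 7 :=
  WithLp.toLp 2 fun i => if i.val < 3 then x i else 0

/-- The part of `x` in `ℝ⁴`. -/
noncomputable def zPart (x : Euc 7) : Euc 7 :=
  WithLp.toLp 2 fun i => if i.val < 3 then 0 else x i

/-- `ρ = |y|`. -/
noncomputable def rhoY (x : Euc 7) : ℝ := ‖yPart x‖

/-- `σ = |z|`. -/
noncomputable def sigZ (x : Euc 7) : ℝ := ‖zPart x‖

/-- The cone. -/
noncomputable def cone (x : Euc 7) : ℝ :=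
  max (rhoY x - sigZ x ^ 2 / (4 * rhoY x)) 0 / Real.sqrt 5

/-- `ρ` clipped from below by `σ / 2`. -/
noncomputable def hatR (x : Euc 7) : ℝ := max (rhoY x) (sigZ x / 2)

/-- `σ` clipped from below by `2 ρ`. -/
noncomputable def hatS (x : Euc 7) : ℝ := max (sigZ x) (2 * rhoY x)

/-- `1 - σ² / (4 ρ²)` on `σ ≤ 2 ρ`, zero beyond. -/
noncomputable def hatT (x : Euc 7) : ℝ := 1 - sigZ x ^ 2 / (4 * hatR x ^ 2)

/-- `1/4 - ρ² / σ²` on `2 ρ ≤ σ`, zero beyond. -/
noncomputable def hatE (x : Euc 7) : ℝ := 1 / 4 - rhoY x ^ 2 / hatS x ^ 2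

/-! ### The profiles -/

/-- The coefficient of `K` along `y` inside. -/
noncomputable def pM (τ : ℝ) : ℝ := -36 / 25 - 12 / 25 * τ - 7 / 25 * τ ^ 2

/-- The coefficient of `K` along `z` inside. -/
noncomputable def pN (τ : ℝ) : ℝ := -3 / 25 - 9 / 25 * τ - 6 / 25 * τ ^ 2

/-- The coefficient of `a` along `y` inside. -/
noncomputable def pU (τ : ℝ) : ℝ := 2 - τ - τ * pM τ

/-- The coefficient of `a` along `z` inside. -/
noncomputable def pV (τ : ℝ) : ℝ := -1 / 2 - τ * pN τ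

/-- The coefficient of `K` along `y` outside. -/
noncomputable def qM (e : ℝ) : ℝ :=
  -144 / 25 - 223 / 25 * e - 198 / 25 * e ^ 2 - 514 / 5 * e ^ 3

/-- The coefficient of `K` along `z` outside. -/
noncomputable def qN (e : ℝ) : ℝ :=
  -12 / 25 + 251 / 25 * e + 307 / 5 * e ^ 2 - 453 / 5 * e ^ 3

/-- The coefficient of `a` along `y` outside. -/
noncomputable def qP (e : ℝ) : ℝ := 4 + 34 / 25 * e + 138 / 5 * e ^ 2 - 188 / 5 * e ^ 3

/-- The coefficient of `a` along `z` outside. -/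
noncomputable def qQ (e : ℝ) : ℝ := -1 - 153 / 25 * e + 116 / 5 * e ^ 2 - 368 / 5 * e ^ 3

/-! ### The fields -/

/-- `a` along `y`. -/
noncomputable def aY (x : Euc 7) : ℝ :=
  (pU (hatT x) / hatR x + (qP (hatE x) - 4) / hatS x) / Real.sqrt 5

/-- `a` along `z`. -/
noncomputable def aZ (x : Euc 7) : ℝ :=
  (pV (hatT x) / hatR x + (qQ (hatE x) + 1) / hatS x) / Real.sqrt 5

/-- `K` along `y`. -/
noncomputable def kY (x : Euc 7) : ℝ :=
  pM (hatT x) / hatR x ^ 2 + (qM (hatE x) + 144 / 25) / hatS x ^ 2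

/-- `K` along `z`. -/
noncomputable def kZ (x : Euc 7) : ℝ :=
  pN (hatT x) / hatR x ^ 2 + (qN (hatE x) + 12 / 25) / hatS x ^ 2

/-- The field `a`. -/
noncomputable def fieldA (i : Fin 7) (x : Euc 7) : ℝ :=
  (if i.val < 3 then aY x else aZ x) * x i

/-- The field `K`. -/
noncomputable def fieldK (i : Fin 7) (x : Euc 7) : ℝ :=
  (if i.val < 3 then kY x else kZ x) * x i

end Vale.Agent.P098.Seven
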