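import Vale.Agent.P098.Regularity.B2.Chain

/-!
P098, the dimension seven: fields which are locally Lipschitz off the origin, cutoffs of the origin,
and weak gradients tested against Lipschitz functions.
-/

open MeasureTheory Filter Metric
open scoped Topology ContDiff NNReal

namespace Vale.Agent.P098.Seven

variable {d : ℕ} {f φ : Euc d → ℝ}

/-- Multiplying by a test function supported off the origin gives a Lipschitz function. -/
lemma exists_lipschitz_mul (hf : LocallyLipschitzOn ({0}ᶜ : Set (Euc d)) f)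
    (hφ : ContDiff ℝ ∞ φ) (hs : HasCompactSupport φ) (h0 : (0 : Euc d) ∉ tsupport φ) :
    ∃ D, LipschitzWith D fun x => φ x * f x := by
  obtain ⟨ε, hε, hεs⟩ := Metric.isOpen_iff.1 (isClosed_tsupport φ).isOpen_compl 0 h0
  obtain ⟨R, hR⟩ := hs.isCompact.isBounded.subset_ball (0 : Euc d)
  set K : Set (Euc d) := closedBall 0 (R + 1) ∩ (ball 0 (ε / 2))ᶜ with hK
  have hKc : IsCompact K := (isCompact_closedBall _ _).inter_right isOpen_ball.isClosed_compl
  have hK0 : K ⊆ ({0}ᶜ : Set (Euc d)) := fun x hx h => hx.2 (by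
    rw [Set.mem_singleton_iff.1 h]; exact mem_ball_self (half_pos hε))
  obtain ⟨L, hL⟩ := (hf.mono hK0).exists_lipschitzOnWith_of_compact hKc
  obtain ⟨B, hB⟩ := hKc.exists_bound_of_continuousOn hL.continuousOn
  obtain ⟨D, hD⟩ := lipschitzWith_of_test hφ hs
  obtain ⟨P, hP⟩ := hφ.continuous.bounded_above_of_compact_support hs
  have hP0 : 0 ≤ P := (norm_nonneg _).trans (hP 0)
  have hout : ∀ x, x ∉ tsupport φ → φ x * f x = 0 := fun x hx => by
    rw [image_eq_zero_of_notMem_tsupport hx, zero_mul]
  have hin : ∀ x ∈ tsupport φ, x ∈ K ∧ ‖x‖ < R ∧ ε ≤ ‖x‖ := fun x hx => by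
    have h1 : ‖x‖ < R := mem_ball_zero_iff.1 (hR hx)
    have h2 : ε ≤ ‖x‖ := not_lt.1 fun h => hεs (mem_ball_zero_iff.2 h) hx
    exact ⟨⟨mem_closedBall_zero_iff.2 (by linarith), fun h => by
      rw [mem_ball_zero_iff] at h; linarith⟩, h1, h2⟩
  set m := min (ε / 2) 1 with hm
  have hm0 : 0 < m := lt_min (half_pos hε) one_pos
  set C : ℝ := P * L + max B 0 * D + P * max B 0 / m
  have hC : 0 ≤ C := by positivity
  refine ⟨C.toNNReal, LipschitzWith.of_dist_le_mul fun x y => ?_⟩
  rw [Real.coe_toNNReal C hC, Real.dist_eq, dist_eq_norm]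
  have hb : ∀ z, |φ z * f z| ≤ P * max B 0 := fun z => by
    by_cases hz : z ∈ tsupport φ
    · rw [abs_mul]
      exact mul_le_mul (hP z) (le_max_of_le_left (hB z (hin z hz).1)) (abs_nonneg _) hP0
    · rw [hout z hz, abs_zero]; positivity
  have h1 : 0 ≤ (P * L + max B 0 * D) * ‖x - y‖ := by positivity
  have h2 : 0 ≤ P * max B 0 / m * ‖x - y‖ := by positivity
  have far : ∀ a b : Euc d, a ∈ tsupport φ → b ∉ K →
      |φ a * f a - φ b * f b| ≤ P * max B 0 / m * ‖a - b‖ := by
    intro a b ha hb'
    obtain ⟨-, a1, a2⟩ := hin a ha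
    rw [hout b fun h => hb' (hin b h).1, sub_zero]
    refine (hb a).trans ?_
    rw [div_mul_eq_mul_div, le_div_iff₀ hm0]
    refine mul_le_mul_of_nonneg_left ?_ (by positivity)
    have t1 := norm_sub_norm_le b a
    have t2 := norm_sub_norm_le a b
    rw [norm_sub_rev b a] at t1
    rw [hK, Set.mem_inter_iff, not_and_or, mem_closedBall_zero_iff, Set.mem_compl_iff, not_not,
      mem_ball_zero_iff, not_le] at hb'
    rcases hb' with h | h
    · linarith [min_le_right (ε / 2) 1]
    · linarith [min_le_left (ε / 2) 1]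
  have hCe : C * ‖x - y‖ = (P * L + max B 0 * D) * ‖x - y‖ + P * max B 0 / m * ‖x - y‖ := by
    simp only [C]; ring
  by_cases hx : x ∈ K
  · by_cases hy : y ∈ K
    · have e1 : |f x - f y| ≤ L * ‖x - y‖ := by
        simpa [Real.dist_eq, dist_eq_norm] using hL.dist_le_mul x hx y hy
      have e2 : |φ x - φ y| ≤ D * ‖x - y‖ := by
        simpa [Real.dist_eq, dist_eq_norm] using hD.dist_le_mul x y
      have e3 : |φ x * f x - φ y * f y| ≤ P * (L * ‖x - y‖) + D * ‖x - y‖ * max B 0 := by
        rw [show φ x * f x - φ y * f y = φ x * (f x - f y) + (φ x - φ y) * f y by ring]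
        refine (abs_add_le _ _).trans ?_
        rw [abs_mul, abs_mul]
        exact add_le_add (mul_le_mul (hP x) e1 (abs_nonneg _) hP0)
          (mul_le_mul e2 (le_max_of_le_left (hB y hy)) (abs_nonneg _) (by positivity))
      linarith [hCe]
    · by_cases hxs : x ∈ tsupport φ
      · linarith [far x y hxs hy, hCe]
      · rw [hout x hxs, hout y fun h => hy (hin y h).1, sub_zero, abs_zero]; positivity
  · by_cases hys : y ∈ tsupport φ
    · have := far y x hys hx
      rw [abs_sub_comm, norm_sub_rev] at this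
      linarith [hCe]
    · rw [hout y hys, hout x fun h => hx (hin x h).1, sub_zero, abs_zero]; positivity

/-- The cutoff of the ball of radius `r` about the origin. -/
noncomputable def holeCut (r : ℝ) (x : Euc d) : ℝ :=
  Real.smoothTransition (‖x‖ ^ 2 / r ^ 2 - 1)

lemma contDiff_holeCut (r : ℝ) : ContDiff ℝ ∞ (holeCut r : Euc d → ℝ) :=
  Real.smoothTransition.contDiff.comp (((contDiff_norm_sq ℝ).div_const _).sub contDiff_const)

lemma holeCut_mem (r : ℝ) (x : Euc d) : holeCut r x ∈ Set.Icc (0 : ℝ) 1 :=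
  ⟨Real.smoothTransition.nonneg _, Real.smoothTransition.le_one _⟩

lemma holeCut_zero {r : ℝ} (hr : 0 < r) {x : Euc d} (hx : ‖x‖ ≤ r) : holeCut r x = 0 :=
  Real.smoothTransition.zero_of_nonpos (by
    rw [sub_nonpos, div_le_one (by positivity)]
    exact pow_le_pow_left₀ (norm_nonneg _) hx 2)

lemma holeCut_one {r : ℝ} (hr : 0 < r) {x : Euc d} (hx : 2 * r ≤ ‖x‖) : holeCut r x = 1 :=
  Real.smoothTransition.one_of_one_le (by
    rw [le_sub_iff_add_le, le_div_iff₀ (by positivity)]
    nlinarith [norm_nonneg x])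

lemma notMem_tsupport_holeCut {r : ℝ} (hr : 0 < r) : (0 : Euc d) ∉ tsupport (holeCut r) :=
  notMem_tsupport_iff_eventuallyEq.2 (by
    filter_upwards [closedBall_mem_nhds (0 : Euc d) hr] with x hx
    exact holeCut_zero hr (mem_closedBall_zero_iff.1 hx))

lemma exists_pd_holeCut_le (d : ℕ) : ∃ M, 0 ≤ M ∧ ∀ (r : ℝ), 0 < r → ∀ (i : Fin d) (x : Euc d),
    |pd i (holeCut r) x| ≤ M / r ∧ (2 * r < ‖x‖ → pd i (holeCut r) x = 0) := by
  obtain ⟨B, hB⟩ := deriv_smoothTransition_mul_bound
  have hB0 : 0 ≤ B := (mul_nonneg (abs_nonneg _) (abs_nonneg _)).trans (hB 0)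
  refine ⟨2 * B, by positivity, fun r hr i x => ?_⟩
  have hz : 2 * r < ‖x‖ → pd i (holeCut r) x = 0 := fun hx => by
    have e : holeCut r =ᶠ[𝓝 x] fun _ => 1 := by
      filter_upwards [continuous_norm.continuousAt.eventually (lt_mem_nhds hx)] with y hy
      exact holeCut_one hr hy.le
    rw [pd_congr e i]
    simp [pd]
  refine ⟨?_, hz⟩
  set t := ‖x‖ ^ 2 / r ^ 2 - 1 with ht
  have h1 := ((Real.smoothTransition.contDiff (n := 1)).differentiable one_ne_zero t).hasDerivAt
    |>.comp_hasFDerivAt x
      (((hasStrictFDerivAt_norm_sq x).hasFDerivAt.mul_const (r ^ 2)⁻¹).sub_const 1)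
  have h2 : HasFDerivAt (holeCut r) (deriv Real.smoothTransition t •
      (r ^ 2)⁻¹ • (2 • innerSL ℝ x)) x := by
    unfold holeCut
    simpa [ht, div_eq_mul_inv, Function.comp_def] using h1
  rw [pd, h2.fderiv]
  simp only [_root_.smul_apply, innerSL_apply_apply, EuclideanSpace.inner_single_right,
    smul_eq_mul, nsmul_eq_mul, Nat.cast_ofNat, one_mul, conj_trivial]
  rcases le_or_gt ‖x‖ r with hx | hx
  · have hd : deriv Real.smoothTransition t = 0 := IsLocalMin.deriv_eq_zero
      (Eventually.of_forall fun s => by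
        rw [Real.smoothTransition.zero_of_nonpos (show t ≤ 0 by
          rw [ht, sub_nonpos, div_le_one (by positivity)]
          exact pow_le_pow_left₀ (norm_nonneg _) hx 2)]
        exact Real.smoothTransition.nonneg s)
    simp [hd]
    positivity
  · have hb := hB t
    have ht1 : |t + 1| = ‖x‖ ^ 2 / r ^ 2 := by
      rw [ht, sub_add_cancel, abs_of_nonneg (by positivity)]
    rw [ht1] at hb
    rw [abs_mul, abs_mul, abs_mul, abs_two, abs_of_nonneg (by positivity : (0 : ℝ) ≤ (r ^ 2)⁻¹)]
    calc |deriv Real.smoothTransition t| * ((r ^ 2)⁻¹ * (2 * |x i|))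
        ≤ |deriv Real.smoothTransition t| * ((r ^ 2)⁻¹ * (2 * (‖x‖ * (‖x‖ / r)))) := by
          gcongr
          refine (PiLp.norm_apply_le x i).trans ?_
          nlinarith [norm_nonneg x, mul_div_cancel₀ ‖x‖ hr.ne',
            (le_div_iff₀ hr).2 (show 1 * r ≤ ‖x‖ by linarith)]
      _ = 2 * (|deriv Real.smoothTransition t| * (‖x‖ ^ 2 / r ^ 2)) / r := by ring
      _ ≤ 2 * B / r := by gcongr

/-- The set of points of differentiability of a field which is locally Lipschitz off the origin
is conull. -/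
lemma ae_differentiableAt (hf : LocallyLipschitzOn ({0}ᶜ : Set (Euc d)) f) :
    ∀ᵐ x, x ≠ 0 → DifferentiableAt ℝ f x := by
  set B : ℕ → ContDiffBump (0 : Euc d) := fun n =>
    ⟨(n : ℝ) + 1, (n : ℝ) + 2, by positivity, by linarith⟩
  set ψ : ℕ → Euc d → ℝ := fun n x => B n x * holeCut (1 / ((n : ℝ) + 1)) x
  have hψ : ∀ n, ContDiff ℝ ∞ (ψ n) := fun n => (B n).contDiff.mul (contDiff_holeCut _)
  have hlip : ∀ n, ∃ D, LipschitzWith D fun x => ψ n x * f x := fun n =>
    exists_lipschitz_mul hf (hψ n) (B n).hasCompactSupport.mul_right fun h =>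
      notMem_tsupport_holeCut (by positivity) (tsupport_mul_subset_right h)
  choose D hD using hlip
  have hall : ∀ᵐ x, ∀ n, DifferentiableAt ℝ (fun y => ψ n y * f y) x :=
    ae_all_iff.2 fun n => (hD n).ae_differentiableAt
  filter_upwards [hall] with x hx hx0
  have hn0 : 0 < ‖x‖ := norm_pos_iff.2 hx0
  obtain ⟨n, hn⟩ := exists_nat_gt (max ‖x‖ (2 / ‖x‖))
  have hn1 : ‖x‖ < n := (le_max_left _ _).trans_lt hn
  have hn2 : 2 / ‖x‖ < n := (le_max_right _ _).trans_lt hn
  rw [div_lt_iff₀ hn0] at hn2
  have hsmall : 2 * (1 / ((n : ℝ) + 1)) < ‖x‖ := by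
    rw [mul_one_div, div_lt_iff₀ (by positivity)]
    nlinarith
  refine (hx n).congr_of_eventuallyEq ?_
  filter_upwards [continuous_norm.continuousAt.eventually (gt_mem_nhds hn1),
    continuous_norm.continuousAt.eventually (lt_mem_nhds hsmall)] with y hy1 hy2
  have e1 : B n y = 1 := (B n).one_of_mem_closedBall (mem_closedBall_zero_iff.2 (by
    show ‖y‖ ≤ (n : ℝ) + 1
    linarith))
  show f y = B n y * holeCut (1 / ((n : ℝ) + 1)) y * f y
  rw [e1, holeCut_one (by positivity : (0 : ℝ) < 1 / ((n : ℝ) + 1)) hy2.le, one_mul, one_mul]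

/-- A bounded function with a weak gradient can be tested against Lipschitz functions. -/
theorem integral_lipschitz_test {g : Fin d → Euc d → ℝ} {c : Euc d} {R M : ℝ}
    (hfm : MemLp f 2 (volume.restrict (ball c R))) (hfb : ∀ᵐ x ∂volume.restrict (ball c R), |f x| ≤ M)
    (hg : HasWeakGrad (ball c R) f g) {D : ℝ≥0} (hφ : LipschitzWith D φ)
    (hs : HasCompactSupport φ) (hsub : tsupport φ ⊆ ball c R) (i : Fin d) :
    ∫ x in ball c R, f x * pd i φ x = -∫ x in ball c R, g i x * φ x := by
  have hb : Bornology.IsBounded (ball c R) := isBounded_ball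
  have := isFiniteMeasure_restrict hb
  have hφc := hφ.continuous
  have hφi : Integrable φ := hφc.integrable_of_hasCompactSupport hs
  have hpi : Integrable (pd i φ) := by
    refine IntegrableOn.integrable_of_forall_notMem_eq_zero (s := tsupport φ) ?_ fun x hx =>
      pd_eq_zero_of_eventually (notMem_tsupport_iff_eventuallyEq.1 hx) i
    exact Measure.integrableOn_of_bounded (M := D) hs.isCompact.measure_lt_top.ne
      (measurable_pd φ i).aestronglyMeasurable
      (Eventually.of_forall fun x => abs_pd_le hφ i x)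
  set k : ℕ → Euc d → ℝ := fun n => (mollBump n : ContDiffBump (0 : Euc d)).normed volume with hk
  have hks : ∀ n, HasCompactSupport (k n) := fun n => (mollBump n).hasCompactSupport_normed
  have hkc : ∀ n, ContDiff ℝ ∞ (k n) := fun n => (mollBump n).contDiff_normed
  have hpd : ∀ n, pd i (moll n φ) = moll n (pd i φ) := fun n => funext fun x => by
    obtain ⟨E, hE⟩ := lipschitzWith_of_test ((hkc n).comp (contDiff_const.sub contDiff_id))
      ((hks n).comp_homeomorph (Homeomorph.subLeft x))
    have h := integral_mul_pd hφ hE ((hks n).comp_homeomorph (Homeomorph.subLeft x)) i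
    rw [moll, pd_avgWith (hkc n) (hks n) hφi.locallyIntegrable]
    simp only [Function.comp_def, id_eq, pd_comp_sub ((hkc n).of_le (by simp)), mul_neg,
      integral_neg, neg_inj] at h
    simp only [avgWith, moll]
    rw [show (fun y => pd i (k n) (x - y) * φ y) = fun y => φ y * pd i (k n) (x - y) from
      funext fun y => mul_comm _ _, h]
    exact integral_congr_ae (Eventually.of_forall fun y => mul_comm _ _)
  obtain ⟨r, hr, hrK⟩ := hs.isCompact.exists_cthickening_subset_open isOpen_ball hsub
  have hsupp : ∀ᶠ n : ℕ in atTop, HasCompactSupport (moll n φ) ∧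
      tsupport (moll n φ) ⊆ ball c R := by
    filter_upwards [(tendsto_one_div_add_atTop_nhds_zero_nat (𝕜 := ℝ)).eventually
      (gt_mem_nhds hr)] with n hn
    have hKc : IsCompact (Metric.cthickening r (tsupport φ)) := hs.isCompact.cthickening
    have h1 : tsupport (moll n φ) ⊆ Metric.cthickening r (tsupport φ) := by
      refine closure_minimal (fun x hx => ?_) Metric.isClosed_cthickening
      obtain ⟨y, hy⟩ : ∃ y, k n (x - y) * φ y ≠ 0 := by
        by_contra! hall
        exact hx (by simp [moll, avgWith, hk ▸ hall])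
      have hy1 : x - y ∈ Function.support (k n) := left_ne_zero_of_mul hy
      rw [hk, (mollBump n).support_normed_eq, mem_ball_zero_iff] at hy1
      exact Metric.mem_cthickening_of_dist_le x y r _
        (subset_closure (right_ne_zero_of_mul hy)) (by
          rw [dist_eq_norm]; exact hy1.le.trans hn.le)
    exact ⟨hKc.of_isClosed_subset (isClosed_tsupport _) h1, h1.trans hrK⟩
  obtain ⟨P, hP⟩ := hφc.bounded_above_of_compact_support hs
  have hP' : ∀ n x, |moll n φ x| ≤ P := fun n x => by
    refine (abs_moll_le φ n x).trans ?_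
    have h1 : moll n (fun y => |φ y|) x ≤ ∫ y, k n (x - y) * P := by
      refine integral_mono_of_nonneg (Eventually.of_forall fun y =>
        mul_nonneg ((mollBump n).nonneg_normed _) (abs_nonneg _)) ?_
        (Eventually.of_forall fun y => mul_le_mul_of_nonneg_left (hP y)
          ((mollBump n).nonneg_normed _))
      exact (((mollBump n).integrable_normed).comp_sub_left x).mul_const P
    rw [integral_mul_const, integral_sub_left_eq_self (k n) volume x, hk,
      (mollBump n).integral_normed, one_mul] at h1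
    exact h1
  have hcd : ∀ n, ContDiff ℝ ∞ (moll n φ) := fun n =>
    contDiff_avgWith (hkc n) (hks n) hφi.locallyIntegrable
  have L1 : Tendsto (fun n => ∫ x in ball c R, f x * pd i (moll n φ) x) atTop
      (𝓝 (∫ x in ball c R, f x * pd i φ x)) := by
    have hM : ∀ᵐ x ∂volume.restrict (ball c R), ‖f x‖ ≤ max M 0 :=
      hfb.mono fun x hx => le_max_of_le_left hx
    refine tendsto_iff_norm_sub_tendsto_zero.2 (squeeze_zero (fun _ => norm_nonneg _) (fun n => ?_)
      (by simpa using (tendsto_integral_abs_moll_sub hpi).const_mul (max M 0)))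
    have i1 : IntegrableOn (fun x => f x * pd i (moll n φ) x) (ball c R) :=
      ((hpd n) ▸ integrable_moll hpi n).integrableOn.bdd_mul hfm.1 hM
    have i2 : IntegrableOn (fun x => f x * pd i φ x) (ball c R) :=
      hpi.integrableOn.bdd_mul hfm.1 hM
    rw [← integral_sub i1 i2]
    refine (norm_integral_le_integral_norm _).trans ?_
    have i3 := (((integrable_moll hpi n).sub hpi).abs.const_mul (max M 0))
    refine (integral_mono_ae (i1.sub i2).norm i3.integrableOn ?_).trans
      ((setIntegral_le_integral i3 (Eventually.of_forall fun x => by positivity)).trans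
        (le_of_eq (integral_const_mul _ _)))
    filter_upwards [hM] with x hx
    simp only [Pi.sub_apply]
    rw [← mul_sub, norm_mul, hpd, ← Real.norm_eq_abs (_ - _)]
    exact mul_le_mul_of_nonneg_right hx (norm_nonneg _)
  have L2 : Tendsto (fun n => ∫ x in ball c R, g i x * moll n φ x) atTop
      (𝓝 (∫ x in ball c R, g i x * φ x)) := by
    refine tendsto_integral_of_dominated_convergence (fun x => P * ‖g i x‖)
      (fun n => (hg.1 i).1.mul (hcd n).continuous.aestronglyMeasurable)
      (((hg.1 i).integrable one_le_two).norm.const_mul P)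
      (fun n => Eventually.of_forall fun x => ?_) ?_
    · rw [norm_mul, mul_comm]
      exact mul_le_mul_of_nonneg_right (hP' n x) (norm_nonneg _)
    · filter_upwards [ae_restrict_of_ae (ae_tendsto_moll hφi.locallyIntegrable)] with x hx
      exact hx.const_mul _
  refine tendsto_nhds_unique L1 (L2.neg.congr' ?_)
  filter_upwards [hsupp] with n hn
  exact (hg.2 i _ (hcd n) hn.1 hn.2).symm

end Vale.Agent.P098.Seven
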