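import Vale.Agent.P098.Seven.Pointwise
import Vale.Agent.P098.Regularity.B3.Lipschitz

/-!
P098, dimension seven: the cone is Lipschitz and not flat, the fields of the calibration are
locally Lipschitz away from the origin and bounded in their degree, the interface is null, and the
values of the derivatives on the two sides.
-/

open MeasureTheory Filter Metric
open scoped Topology ContDiff NNReal RealInnerProductSpace

namespace Vale.Agent.P098.Seven

noncomputable section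

/-! ### The two radii -/

lemma rhoY_sq (x : Euc 7) : rhoY x ^ 2 = ∑ i : Fin 7, if i.val < 3 then x i ^ 2 else 0 := by
  rw [rhoY, EuclideanSpace.norm_sq_eq]
  exact Finset.sum_congr rfl fun i _ => by by_cases h : i.val < 3 <;> simp [yPart, h]

lemma sigZ_sq (x : Euc 7) : sigZ x ^ 2 = ∑ i : Fin 7, if i.val < 3 then 0 else x i ^ 2 := by
  rw [sigZ, EuclideanSpace.norm_sq_eq]
  exact Finset.sum_congr rfl fun i _ => by by_cases h : i.val < 3 <;> simp [zPart, h]

lemma rho_sig_sq (x : Euc 7) : rhoY x ^ 2 + sigZ x ^ 2 = ‖x‖ ^ 2 := by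
  rw [rhoY_sq, sigZ_sq, EuclideanSpace.norm_sq_eq, ← Finset.sum_add_distrib]
  exact Finset.sum_congr rfl fun i _ => by by_cases h : i.val < 3 <;> simp [h]

lemma rhoY_nonneg (x : Euc 7) : 0 ≤ rhoY x := norm_nonneg _

lemma sigZ_nonneg (x : Euc 7) : 0 ≤ sigZ x := norm_nonneg _

lemma yPart_sub (x y : Euc 7) : yPart (x - y) = yPart x - yPart y := by
  ext i
  by_cases h : i.val < 3 <;> simp [yPart, h]

lemma zPart_sub (x y : Euc 7) : zPart (x - y) = zPart x - zPart y := by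
  ext i
  by_cases h : i.val < 3 <;> simp [zPart, h]

lemma rhoY_le (x : Euc 7) : rhoY x ≤ ‖x‖ := by
  refine le_of_pow_le_pow_left₀ two_ne_zero (norm_nonneg x) ?_
  rw [← rho_sig_sq x]
  exact le_add_of_nonneg_right (sq_nonneg _)

lemma sigZ_le (x : Euc 7) : sigZ x ≤ ‖x‖ := by
  refine le_of_pow_le_pow_left₀ two_ne_zero (norm_nonneg x) ?_
  rw [← rho_sig_sq x]
  exact le_add_of_nonneg_left (sq_nonneg _)

lemma abs_rhoY_sub (x y : Euc 7) : |rhoY x - rhoY y| ≤ ‖x - y‖ :=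
  (abs_norm_sub_norm_le _ _).trans (by rw [← yPart_sub]; exact rhoY_le (x - y))

lemma abs_sigZ_sub (x y : Euc 7) : |sigZ x - sigZ y| ≤ ‖x - y‖ :=
  (abs_norm_sub_norm_le _ _).trans (by rw [← zPart_sub]; exact sigZ_le (x - y))

lemma lipschitz_rhoY : LipschitzWith 1 rhoY :=
  LipschitzWith.of_dist_le_mul fun x y => by
    simpa [Real.dist_eq, dist_eq_norm] using abs_rhoY_sub x y

lemma lipschitz_sigZ : LipschitzWith 1 sigZ :=
  LipschitzWith.of_dist_le_mul fun x y => by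
    simpa [Real.dist_eq, dist_eq_norm] using abs_sigZ_sub x y

lemma continuous_rhoY : Continuous rhoY := lipschitz_rhoY.continuous

lemma continuous_sigZ : Continuous sigZ := lipschitz_sigZ.continuous

lemma rhoY_smul {r : ℝ} (hr : 0 ≤ r) (x : Euc 7) : rhoY (r • x) = r * rhoY x := by
  have : yPart (r • x) = r • yPart x := by ext i; by_cases h : i.val < 3 <;> simp [yPart, h]
  rw [rhoY, rhoY, this, norm_smul, Real.norm_eq_abs, abs_of_nonneg hr]

lemma sigZ_smul {r : ℝ} (hr : 0 ≤ r) (x : Euc 7) : sigZ (r • x) = r * sigZ x := by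
  have : zPart (r • x) = r • zPart x := by ext i; by_cases h : i.val < 3 <;> simp [zPart, h]
  rw [sigZ, sigZ, this, norm_smul, Real.norm_eq_abs, abs_of_nonneg hr]

lemma hatR_pos {x : Euc 7} (hx : x ≠ 0) : 0 < hatR x := by
  by_contra h
  rw [not_lt, hatR, max_le_iff] at h
  have h1 : rhoY x = 0 := le_antisymm h.1 (rhoY_nonneg x)
  have h2 : sigZ x = 0 := le_antisymm (by linarith [h.2]) (sigZ_nonneg x)
  have := rho_sig_sq x
  rw [h1, h2] at this
  exact hx (norm_eq_zero.1 (pow_eq_zero_iff two_ne_zero |>.1 (by linarith)))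

lemma hatS_pos {x : Euc 7} (hx : x ≠ 0) : 0 < hatS x := by
  have h := hatR_pos hx
  unfold hatR at h
  unfold hatS
  rcases lt_max_iff.1 h with h | h
  · exact lt_max_of_lt_right (by linarith)
  · exact lt_max_of_lt_left (by linarith)

/-! ### The cone -/

lemma cone_nonneg (x : Euc 7) : 0 ≤ cone x := div_nonneg (le_max_right _ _) (Real.sqrt_nonneg _)

lemma cone_pos_iff {x : Euc 7} : 0 < cone x ↔ sigZ x < 2 * rhoY x := by
  rw [cone, div_pos_iff_of_pos_right sqrt_five_pos, lt_max_iff, or_iff_left (lt_irrefl 0)]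
  rcases (rhoY_nonneg x).eq_or_lt with h | h
  · rw [← h]
    simp [(sigZ_nonneg x).not_gt]
  · rw [sub_pos, div_lt_iff₀ (by positivity)]
    constructor <;> intro h1 <;> nlinarith [sigZ_nonneg x]

lemma cone_smul {r : ℝ} (hr : 0 < r) (x : Euc 7) : cone (r • x) = r * cone x := by
  rw [cone, cone, rhoY_smul hr.le, sigZ_smul hr.le, ← mul_div_assoc, mul_max_of_nonneg _ _ hr.le,
    mul_zero, mul_sub]
  congr 3
  rcases eq_or_ne (rhoY x) 0 with h | h
  · simp [h]
  · field_simp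

/-- The cone through `min σ (2 ρ)`. -/
lemma cone_eq (x : Euc 7) :
    cone x = (rhoY x - min (sigZ x) (2 * rhoY x) ^ 2 / (4 * rhoY x)) / Real.sqrt 5 := by
  rw [cone]
  congr 1
  rcases (rhoY_nonneg x).eq_or_lt with h | h
  · simp [← h]
  rcases le_total (sigZ x) (2 * rhoY x) with h1 | h1
  · rw [min_eq_left h1, max_eq_left]
    rw [sub_nonneg, div_le_iff₀ (by positivity)]
    nlinarith [sigZ_nonneg x]
  · rw [min_eq_right h1, max_eq_right]
    · field_simp; ring
    · rw [sub_nonpos, le_div_iff₀ (by positivity)]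
      nlinarith

lemma height_sub_le {r₁ r₂ s₁ s₂ : ℝ} (h : r₂ ≤ r₁) (hr : 0 ≤ r₂) (hs₁ : 0 ≤ s₁) (hs₂ : 0 ≤ s₂)
    (h₁ : s₁ ≤ 2 * r₁) (h₂ : s₂ ≤ 2 * r₂) :
    |(r₁ - s₁ ^ 2 / (4 * r₁)) - (r₂ - s₂ ^ 2 / (4 * r₂))| ≤ 2 * (r₁ - r₂) + |s₁ - s₂| := by
  rcases hr.eq_or_lt with h0 | h0
  · have hs : s₂ = 0 := by linarith
    subst h0 hs
    rcases h.eq_or_lt with h3 | h3
    · have : s₁ = 0 := by linarith
      subst h3 this
      simp
    · have h4 : 0 ≤ s₁ ^ 2 / (4 * r₁) := by positivity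
      have h5 : s₁ ^ 2 / (4 * r₁) ≤ r₁ := by
        rw [div_le_iff₀ (by positivity)]; nlinarith
      simp only [mul_zero, div_zero, sub_zero, zero_pow two_ne_zero]
      rw [abs_of_nonneg (by linarith)]
      linarith [abs_nonneg s₁]
  have hr₁ : 0 < r₁ := by linarith
  have e : s₁ ^ 2 / (4 * r₁) - s₂ ^ 2 / (4 * r₂) =
      (s₁ - s₂) * ((s₁ + s₂) / (4 * r₁)) - (r₁ - r₂) * (s₂ ^ 2 / (4 * r₁ * r₂)) := by
    field_simp
    ring
  have b1 : (s₁ + s₂) / (4 * r₁) ≤ 1 := by rw [div_le_one (by positivity)]; linarith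
  have b2 : s₂ ^ 2 / (4 * r₁ * r₂) ≤ 1 := by rw [div_le_one (by positivity)]; nlinarith
  have b3 : 0 ≤ (s₁ + s₂) / (4 * r₁) := by positivity
  have b4 : 0 ≤ s₂ ^ 2 / (4 * r₁ * r₂) := by positivity
  have c1 : |(s₁ - s₂) * ((s₁ + s₂) / (4 * r₁))| ≤ |s₁ - s₂| := by
    rw [abs_mul, abs_of_nonneg b3]
    exact mul_le_of_le_one_right (abs_nonneg _) b1
  have c2 : (r₁ - r₂) * (s₂ ^ 2 / (4 * r₁ * r₂)) ≤ r₁ - r₂ :=
    mul_le_of_le_one_right (by linarith) b2
  have c3 := mul_nonneg (sub_nonneg.2 h) b4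
  rw [show r₁ - s₁ ^ 2 / (4 * r₁) - (r₂ - s₂ ^ 2 / (4 * r₂)) =
    (r₁ - r₂) - (s₁ ^ 2 / (4 * r₁) - s₂ ^ 2 / (4 * r₂)) by ring, e, abs_le]
  obtain ⟨c4, c5⟩ := abs_le.1 c1
  constructor <;> linarith

theorem exists_lipschitz_cone : ∃ L, LipschitzWith L cone := by
  refine ⟨5, LipschitzWith.of_dist_le_mul fun x y => ?_⟩
  have h5 : 1 ≤ Real.sqrt 5 := Real.one_le_sqrt.2 (by norm_num)
  have hm : ∀ a b : Euc 7, |min (sigZ a) (2 * rhoY a) - min (sigZ b) (2 * rhoY b)| ≤ 3 * ‖a - b‖ :=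
    fun a b => (abs_min_sub_min_le_max _ _ _ _).trans (max_le
      ((abs_sigZ_sub a b).trans (by linarith [norm_nonneg (a - b)])) (by
        rw [← mul_sub, abs_mul, abs_two]
        linarith [abs_rhoY_sub a b, norm_nonneg (a - b)]))
  have key : ∀ a b : Euc 7, rhoY b ≤ rhoY a → |cone a - cone b| ≤ 5 * ‖a - b‖ := fun a b h => by
    have h1 := height_sub_le h (rhoY_nonneg b)
      (le_min (sigZ_nonneg a) (mul_nonneg zero_le_two (rhoY_nonneg a)))
      (le_min (sigZ_nonneg b) (mul_nonneg zero_le_two (rhoY_nonneg b)))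
      (min_le_right _ _) (min_le_right _ _)
    rw [cone_eq, cone_eq, ← sub_div, abs_div, abs_of_pos sqrt_five_pos]
    refine (div_le_self (abs_nonneg _) h5).trans (h1.trans ?_)
    linarith [hm a b, (abs_le.1 (abs_rhoY_sub a b)).2]
  rw [Real.dist_eq, dist_eq_norm]
  push_cast
  rcases le_total (rhoY y) (rhoY x) with h | h
  · exact key x y h
  · rw [abs_sub_comm, norm_sub_rev]
    exact key y x h

theorem cone_not_flat : ¬ (cone =ᵐ[volume] 0) ∧
    ∀ e : Euc 7, ‖e‖ = 1 → ¬ (cone =ᵐ[volume] fun x => max ⟪e, x⟫ 0) := by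
  obtain ⟨L, hL⟩ := exists_lipschitz_cone
  have hp : ∀ c : ℝ, c ≠ 0 → 0 < cone (EuclideanSpace.single (0 : Fin 7) c) := fun c hc => by
    rw [cone_pos_iff]
    have h1 : rhoY (EuclideanSpace.single (0 : Fin 7) c) ^ 2 = c ^ 2 := by
      rw [rhoY_sq, Finset.sum_eq_single (0 : Fin 7)]
      · simp
      · intro b _ hb; simp [hb]
      · simp
    have h2 := rho_sig_sq (EuclideanSpace.single (0 : Fin 7) c)
    rw [h1, PiLp.norm_single, Real.norm_eq_abs, sq_abs] at h2
    have h3 : sigZ (EuclideanSpace.single (0 : Fin 7) c) = 0 :=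
      pow_eq_zero_iff two_ne_zero |>.1 (by linarith)
    have h4 : 0 < rhoY (EuclideanSpace.single (0 : Fin 7) c) ^ 2 := by rw [h1]; positivity
    rw [h3]
    nlinarith [rhoY_nonneg (EuclideanSpace.single (0 : Fin 7) c)]
  refine ⟨fun h => ?_, fun e _ h => ?_⟩
  · have h1 := Measure.eq_of_ae_eq h hL.continuous continuous_zero
    have h2 := hp 1 one_ne_zero
    rw [h1] at h2
    exact lt_irrefl 0 h2
  · have h1 := Measure.eq_of_ae_eq h hL.continuous
      ((continuous_const.inner continuous_id).max continuous_const)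
    have ha := hp 1 one_ne_zero
    have hb := hp (-1) (by norm_num)
    simp only [h1] at ha hb
    simp only [lt_max_iff, lt_self_iff_false, or_false] at ha hb
    rw [EuclideanSpace.inner_single_right] at ha hb
    simp at ha hb
    linarith

/-- The interface is null. -/
theorem volume_interface : volume {x : Euc 7 | sigZ x = 2 * rhoY x} = 0 := by
  set g : Euc 7 → ℝ := fun x => |sigZ x - 2 * rhoY x| with hg
  have hl : LipschitzWith 3 g := LipschitzWith.of_dist_le_mul fun x y => by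
    rw [Real.dist_eq, dist_eq_norm, hg]
    push_cast
    refine (abs_abs_sub_abs_le_abs_sub _ _).trans ?_
    obtain ⟨a1, a2⟩ := abs_le.1 (abs_rhoY_sub x y)
    obtain ⟨b1, b2⟩ := abs_le.1 (abs_sigZ_sub x y)
    exact abs_le.2 ⟨by linarith, by linarith⟩
  have hsub : {x : Euc 7 | sigZ x = 2 * rhoY x} ⊆ {0} ∪ {x | ¬ DifferentiableAt ℝ g x} := by
    intro x hx
    simp only [Set.mem_ofPred_eq] at hx
    by_cases h0 : x = 0
    · exact Or.inl h0
    refine Or.inr fun hd => ?_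
    have hρ : 0 < rhoY x := by
      by_contra h
      have h1 : rhoY x = 0 := le_antisymm (not_lt.1 h) (rhoY_nonneg x)
      have h2 := rho_sig_sq x
      rw [h1, show sigZ x = 0 by rw [hx, h1, mul_zero]] at h2
      exact h0 (norm_eq_zero.1 (pow_eq_zero_iff two_ne_zero |>.1 (by linarith)))
    have hline : HasDerivAt (fun t : ℝ => g (x + t • yPart x))
        (fderiv ℝ g x (yPart x)) 0 := hd.hasFDerivAt.hasLineDerivAt (yPart x)
    have e : (fun t : ℝ => g (x + t • yPart x)) =ᶠ[𝓝 0] fun t => |2 * rhoY x * t| := by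
      filter_upwards [eventually_gt_nhds (show (-1 : ℝ) < 0 by norm_num)] with t ht
      have h1 : yPart (x + t • yPart x) = (1 + t) • yPart x := by
        ext i
        by_cases h : i.val < 3 <;> simp [yPart, h]
        ring
      have h2 : zPart (x + t • yPart x) = zPart x := by
        ext i
        by_cases h : i.val < 3 <;> simp [yPart, zPart, h]
      have h3 : rhoY (x + t • yPart x) = (1 + t) * rhoY x := by
        rw [rhoY, rhoY, h1, norm_smul, Real.norm_eq_abs, abs_of_pos (by linarith)]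
      have h4 : sigZ (x + t • yPart x) = sigZ x := by rw [sigZ, sigZ, h2]
      rw [hg]
      simp only [h3, h4, hx]
      rw [show 2 * rhoY x - 2 * ((1 + t) * rhoY x) = -(2 * rhoY x * t) by ring, abs_neg]
    have h5 := hline.congr_of_eventuallyEq e.symm
    have h6 : DifferentiableAt ℝ (fun t : ℝ => |t|) 0 := by
      have h7 := (h5.const_mul (2 * rhoY x)⁻¹).differentiableAt
      refine h7.congr_of_eventuallyEq (Eventually.of_forall fun t => ?_)
      simp only []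
      rw [abs_mul, abs_of_pos (by positivity : (0 : ℝ) < 2 * rhoY x)]
      field_simp
    exact not_differentiableAt_abs_zero h6
  refine measure_mono_null hsub (measure_union_null (measure_singleton _) ?_)
  exact ae_iff.1 hl.ae_differentiableAt

/-! ### The fields -/

lemma coord_le (i : Fin 7) (x : Euc 7) : |x i| ≤ ‖x‖ := by
  refine le_of_pow_le_pow_left₀ two_ne_zero (norm_nonneg x) ?_
  rw [sq_abs, EuclideanSpace.norm_sq_eq]
  exact (le_of_eq (by simp)).trans (Finset.single_le_sum (f := fun j => ‖x j‖ ^ 2)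
    (fun j _ => sq_nonneg _) (Finset.mem_univ i))

/-- The clipped radii and one coordinate. -/
def radii (i : Fin 7) (x : Euc 7) : ℝ × ℝ × ℝ × ℝ × ℝ :=
  (rhoY x, sigZ x, hatR x, hatS x, x i)

lemma lipschitz_radii (i : Fin 7) : ∃ K, LipschitzWith K (radii i) := by
  have hc : LipschitzWith 1 fun x : Euc 7 => x i := LipschitzWith.of_dist_le_mul fun x y => by
    simpa [Real.dist_eq, dist_eq_norm] using coord_le i (x - y)
  have h2 : LipschitzWith 1 fun x => sigZ x / 2 := LipschitzWith.of_dist_le_mul fun x y => by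
    rw [Real.dist_eq, dist_eq_norm]
    push_cast
    obtain ⟨b1, b2⟩ := abs_le.1 (abs_sigZ_sub x y)
    exact abs_le.2 ⟨by linarith [norm_nonneg (x - y)], by linarith [norm_nonneg (x - y)]⟩
  have h3 : LipschitzWith 2 fun x => 2 * rhoY x := LipschitzWith.of_dist_le_mul fun x y => by
    rw [Real.dist_eq, dist_eq_norm, ← mul_sub, abs_mul, abs_two]
    push_cast
    linarith [abs_rhoY_sub x y]
  exact ⟨_, lipschitz_rhoY.prodMk (lipschitz_sigZ.prodMk
    ((lipschitz_rhoY.max h2).prodMk ((lipschitz_sigZ.max h3).prodMk hc)))⟩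

/-- A function of the clipped radii is locally Lipschitz away from the origin. -/
lemma locallyLipschitz_radii (i : Fin 7) {F : ℝ × ℝ × ℝ × ℝ × ℝ → ℝ}
    (hF : ∀ p : ℝ × ℝ × ℝ × ℝ × ℝ, p.2.2.1 ≠ 0 → p.2.2.2.1 ≠ 0 → ContDiffAt ℝ 1 F p) :
    LocallyLipschitzOn {0}ᶜ (F ∘ radii i) := by
  intro x hx
  obtain ⟨K, hK⟩ := lipschitz_radii i
  obtain ⟨K', t, ht, hF'⟩ :=
    (hF (radii i x) (hatR_pos hx).ne' (hatS_pos hx).ne').exists_lipschitzOnWith
  refine ⟨K' * K, radii i ⁻¹' t, mem_nhdsWithin_of_mem_nhds (hK.continuous.continuousAt ht), ?_⟩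
  exact hF'.comp (hK.lipschitzOnWith (s := radii i ⁻¹' t)) (Set.mapsTo_preimage _ _)

lemma contDiffAt_profiles {p : ℝ × ℝ × ℝ × ℝ × ℝ} (hR : p.2.2.1 ≠ 0) (hS : p.2.2.2.1 ≠ 0) :
    ContDiffAt ℝ 1 (fun q : ℝ × ℝ × ℝ × ℝ × ℝ => 1 - q.2.1 ^ 2 / (4 * q.2.2.1 ^ 2)) p ∧
    ContDiffAt ℝ 1 (fun q : ℝ × ℝ × ℝ × ℝ × ℝ => 1 / 4 - q.1 ^ 2 / q.2.2.2.1 ^ 2) p := by
  constructor
  · exact contDiffAt_const.sub (ContDiffAt.div (by fun_prop) (by fun_prop)
      (mul_ne_zero (by norm_num) (pow_ne_zero 2 hR)))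
  · exact contDiffAt_const.sub (ContDiffAt.div (by fun_prop) (by fun_prop) (pow_ne_zero 2 hS))

theorem locallyLipschitzOn_fieldA (i : Fin 7) : LocallyLipschitzOn {0}ᶜ (fieldA i) := by
  have c1 : ∀ {f : ℝ → ℝ}, f = pU ∨ f = pV → ContDiff ℝ 1 f := by
    rintro f (rfl | rfl)
    · unfold pU pM; fun_prop
    · unfold pV pN; fun_prop
  have c2 : ∀ {f : ℝ → ℝ}, f = qP ∨ f = qQ → ContDiff ℝ 1 f := by
    rintro f (rfl | rfl)
    · unfold qP; fun_prop
    · unfold qQ; fun_prop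
  by_cases h : i.val < 3
  · have e : fieldA i = (fun q : ℝ × ℝ × ℝ × ℝ × ℝ =>
        (pU (1 - q.2.1 ^ 2 / (4 * q.2.2.1 ^ 2)) / q.2.2.1 +
          (qP (1 / 4 - q.1 ^ 2 / q.2.2.2.1 ^ 2) - 4) / q.2.2.2.1) / Real.sqrt 5 * q.2.2.2.2) ∘
        radii i := funext fun x => by simp [fieldA, h, aY, hatT, hatE, radii]
    rw [e]
    refine locallyLipschitz_radii i fun p hR hS => ?_
    obtain ⟨hT, hE⟩ := contDiffAt_profiles hR hS
    exact (((((c1 (Or.inl rfl)).contDiffAt.comp p hT).div (by fun_prop) hR).add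
      ((((c2 (Or.inl rfl)).contDiffAt.comp p hE).sub contDiffAt_const).div (by fun_prop) hS)).div_const
        _).mul (by fun_prop)
  · have e : fieldA i = (fun q : ℝ × ℝ × ℝ × ℝ × ℝ =>
        (pV (1 - q.2.1 ^ 2 / (4 * q.2.2.1 ^ 2)) / q.2.2.1 +
          (qQ (1 / 4 - q.1 ^ 2 / q.2.2.2.1 ^ 2) + 1) / q.2.2.2.1) / Real.sqrt 5 * q.2.2.2.2) ∘
        radii i := funext fun x => by simp [fieldA, h, aZ, hatT, hatE, radii]
    rw [e]
    refine locallyLipschitz_radii i fun p hR hS => ?_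
    obtain ⟨hT, hE⟩ := contDiffAt_profiles hR hS
    exact (((((c1 (Or.inr rfl)).contDiffAt.comp p hT).div (by fun_prop) hR).add
      ((((c2 (Or.inr rfl)).contDiffAt.comp p hE).add contDiffAt_const).div (by fun_prop) hS)).div_const
        _).mul (by fun_prop)

theorem locallyLipschitzOn_fieldK (i : Fin 7) : LocallyLipschitzOn {0}ᶜ (fieldK i) := by
  have c1 : ∀ {f : ℝ → ℝ}, f = pM ∨ f = pN → ContDiff ℝ 1 f := by
    rintro f (rfl | rfl)
    · unfold pM; fun_prop
    · unfold pN; fun_prop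
  have c2 : ∀ {f : ℝ → ℝ}, f = qM ∨ f = qN → ContDiff ℝ 1 f := by
    rintro f (rfl | rfl)
    · unfold qM; fun_prop
    · unfold qN; fun_prop
  by_cases h : i.val < 3
  · have e : fieldK i = (fun q : ℝ × ℝ × ℝ × ℝ × ℝ =>
        (pM (1 - q.2.1 ^ 2 / (4 * q.2.2.1 ^ 2)) / q.2.2.1 ^ 2 +
          (qM (1 / 4 - q.1 ^ 2 / q.2.2.2.1 ^ 2) + 144 / 25) / q.2.2.2.1 ^ 2) * q.2.2.2.2) ∘
        radii i := funext fun x => by simp [fieldK, h, kY, hatT, hatE, radii]
    rw [e]
    refine locallyLipschitz_radii i fun p hR hS => ?_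
    obtain ⟨hT, hE⟩ := contDiffAt_profiles hR hS
    exact ((((c1 (Or.inl rfl)).contDiffAt.comp p hT).div (by fun_prop) (pow_ne_zero 2 hR)).add
      ((((c2 (Or.inl rfl)).contDiffAt.comp p hE).add contDiffAt_const).div (by fun_prop)
        (pow_ne_zero 2 hS))).mul (by fun_prop)
  · have e : fieldK i = (fun q : ℝ × ℝ × ℝ × ℝ × ℝ =>
        (pN (1 - q.2.1 ^ 2 / (4 * q.2.2.1 ^ 2)) / q.2.2.1 ^ 2 +
          (qN (1 / 4 - q.1 ^ 2 / q.2.2.2.1 ^ 2) + 12 / 25) / q.2.2.2.1 ^ 2) * q.2.2.2.2) ∘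
        radii i := funext fun x => by simp [fieldK, h, kZ, hatT, hatE, radii]
    rw [e]
    refine locallyLipschitz_radii i fun p hR hS => ?_
    obtain ⟨hT, hE⟩ := contDiffAt_profiles hR hS
    exact ((((c1 (Or.inr rfl)).contDiffAt.comp p hT).div (by fun_prop) (pow_ne_zero 2 hR)).add
      ((((c2 (Or.inr rfl)).contDiffAt.comp p hE).add contDiffAt_const).div (by fun_prop)
        (pow_ne_zero 2 hS))).mul (by fun_prop)

lemma hat_smul {r : ℝ} (hr : 0 < r) (x : Euc 7) :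
    hatR (r • x) = r * hatR x ∧ hatS (r • x) = r * hatS x ∧ hatT (r • x) = hatT x ∧
      hatE (r • x) = hatE x := by
  have h1 : hatR (r • x) = r * hatR x := by
    rw [hatR, hatR, rhoY_smul hr.le, sigZ_smul hr.le, mul_max_of_nonneg _ _ hr.le, mul_div_assoc]
  have h2 : hatS (r • x) = r * hatS x := by
    rw [hatS, hatS, rhoY_smul hr.le, sigZ_smul hr.le, mul_max_of_nonneg _ _ hr.le]
    congr 1
    ring
  refine ⟨h1, h2, ?_, ?_⟩
  · rw [hatT, hatT, h1, sigZ_smul hr.le]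
    congr 1
    rw [mul_pow, mul_pow, show 4 * (r ^ 2 * hatR x ^ 2) = r ^ 2 * (4 * hatR x ^ 2) by ring,
      mul_div_mul_left _ _ (pow_ne_zero 2 hr.ne')]
  · rw [hatE, hatE, h2, rhoY_smul hr.le, mul_pow, mul_pow,
      mul_div_mul_left _ _ (pow_ne_zero 2 hr.ne')]

lemma field_smul {r : ℝ} (hr : 0 < r) (i : Fin 7) (x : Euc 7) :
    fieldA i (r • x) = fieldA i x ∧ fieldK i (r • x) = fieldK i x / r := by
  obtain ⟨h1, h2, h3, h4⟩ := hat_smul hr x
  constructor <;>
  · simp only [fieldA, fieldK, aY, aZ, kY, kZ, h1, h2, h3, h4, PiLp.smul_apply, smul_eq_mul]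
    split_ifs <;> field_simp

theorem exists_field_bound : ∃ A, ∀ x : Euc 7, x ≠ 0 →
    ‖(WithLp.toLp 2 fun i => fieldA i x : Euc 7)‖ ≤ A ∧
      ‖x‖ * ‖(WithLp.toLp 2 fun i => fieldK i x : Euc 7)‖ ≤ A := by
  set S : Set (Euc 7) := sphere 0 1
  have hS : S ⊆ {0}ᶜ := fun x hx h => by
    have : x = 0 := h
    simp [S, this] at hx
  have hA : ContinuousOn (fun x => (WithLp.toLp 2 fun i => fieldA i x : Euc 7)) S :=
    (PiLp.continuous_toLp 2 _).comp_continuousOn
      (continuousOn_pi.2 fun i => ((locallyLipschitzOn_fieldA i).continuousOn).mono hS)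
  have hK : ContinuousOn (fun x => (WithLp.toLp 2 fun i => fieldK i x : Euc 7)) S :=
    (PiLp.continuous_toLp 2 _).comp_continuousOn
      (continuousOn_pi.2 fun i => ((locallyLipschitzOn_fieldK i).continuousOn).mono hS)
  obtain ⟨A, hA'⟩ := (isCompact_sphere (0 : Euc 7) 1).exists_bound_of_continuousOn hA
  obtain ⟨B, hB'⟩ := (isCompact_sphere (0 : Euc 7) 1).exists_bound_of_continuousOn hK
  refine ⟨max A B, fun x hx => ?_⟩
  have hn : 0 < ‖x‖ := norm_pos_iff.2 hx
  set y := ‖x‖⁻¹ • x with hy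
  have hyS : y ∈ S := by simp [S, y, norm_smul, hn.ne']
  have ex : x = ‖x‖ • y := by rw [hy, smul_smul, mul_inv_cancel₀ hn.ne', one_smul]
  constructor
  · have e : (WithLp.toLp 2 fun i => fieldA i x : Euc 7) = WithLp.toLp 2 fun i => fieldA i y := by
      congr 1
      funext i
      conv_lhs => rw [ex, (field_smul hn i y).1]
    rw [e]
    exact (hA' y hyS).trans (le_max_left _ _)
  · have e : (WithLp.toLp 2 fun i => fieldK i x : Euc 7) =
        ‖x‖⁻¹ • (WithLp.toLp 2 fun i => fieldK i y : Euc 7) := by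
      ext i
      simp only [PiLp.smul_apply, smul_eq_mul]
      conv_lhs => rw [ex, (field_smul hn i y).2]
      ring
    rw [e, norm_smul, norm_inv, norm_norm, ← mul_assoc, mul_inv_cancel₀ hn.ne', one_mul]
    exact (hB' y hyS).trans (le_max_right _ _)

/-! ### Derivatives on the two sides -/

lemma differentiableAt_sq (x : Euc 7) :
    DifferentiableAt ℝ (fun z => rhoY z ^ 2) x ∧ DifferentiableAt ℝ (fun z => sigZ z ^ 2) x := by
  have hc : ∀ i : Fin 7, DifferentiableAt ℝ (fun z : Euc 7 => z i) x := fun i =>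
    (EuclideanSpace.proj (𝕜 := ℝ) i).differentiableAt
  constructor
  · simp only [rhoY_sq]
    refine DifferentiableAt.fun_sum fun i _ => ?_
    by_cases h : i.val < 3 <;> simp only [h, if_true, if_false]
    · exact (hc i).fun_pow 2
    · exact differentiableAt_const _
  · simp only [sigZ_sq]
    refine DifferentiableAt.fun_sum fun i _ => ?_
    by_cases h : i.val < 3 <;> simp only [h, if_true, if_false]
    · exact differentiableAt_const _
    · exact (hc i).fun_pow 2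

lemma sq_line (x : Euc 7) (i : Fin 7) (t : ℝ) :
    rhoY (x + t • EuclideanSpace.single i (1 : ℝ)) ^ 2 =
        rhoY x ^ 2 + (if i.val < 3 then 2 * t * x i + t ^ 2 else 0) ∧
      sigZ (x + t • EuclideanSpace.single i (1 : ℝ)) ^ 2 =
        sigZ x ^ 2 + (if i.val < 3 then 0 else 2 * t * x i + t ^ 2) := by
  have e : ∀ j : Fin 7, ((x + t • EuclideanSpace.single i (1 : ℝ) : Euc 7) j) ^ 2 =
      x j ^ 2 + if j = i then 2 * t * x i + t ^ 2 else 0 := fun j => by
    by_cases h : j = i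
    · subst h; simp; ring
    · simp [h]
  rw [rhoY_sq, rhoY_sq, sigZ_sq, sigZ_sq]
  have k : ∀ (p : Fin 7 → Prop) [DecidablePred p] (c : ℝ),
      (∑ j, if p j then x j ^ 2 + (if j = i then c else 0) else 0) =
        (∑ j, if p j then x j ^ 2 else 0) + if p i then c else 0 := fun p _ c => by
    rw [show (if p i then c else 0) = ∑ j, if j = i then (if p i then c else 0) else 0 by
      rw [Finset.sum_ite_eq']; simp, ← Finset.sum_add_distrib]
    refine Finset.sum_congr rfl fun j _ => ?_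
    by_cases hj : j = i
    · subst hj; split_ifs <;> simp
    · simp [hj]
  constructor
  · simp only [e]
    exact k (fun j => j.val < 3) _
  · simp only [e]
    have h := k (fun j => ¬ j.val < 3) (2 * t * x i + t ^ 2)
    simp only [ite_not] at h
    exact h

lemma diff_quot {a b v : ℝ} {f g : ℝ × ℝ → ℝ} (hf : DifferentiableAt ℝ f (a, b))
    (hg : DifferentiableAt ℝ g (a, b)) (h : v ≠ 0) (e : g (a, b) = v) :
    DifferentiableAt ℝ (fun q => f q / g q) (a, b) :=
  by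
  simp only [div_eq_mul_inv]
  exact hf.fun_mul (hg.fun_inv (by rw [e]; exact h))

lemma diff_scale {p : ℝ × ℝ} {f : ℝ × ℝ → ℝ} (hf : DifferentiableAt ℝ f p) (c : ℝ) :
    DifferentiableAt ℝ (fun q => f q / c) p := by
  simp only [div_eq_mul_inv]
  exact hf.mul_const _

/-- The derivatives of a function of `(ρ², σ²)`. -/
lemma pd_radial {g : Euc 7 → ℝ} {f : ℝ → ℝ → ℝ} {a b : ℝ} {x : Euc 7}
    (he : g =ᶠ[𝓝 x] fun z => f (rhoY z ^ 2) (sigZ z ^ 2))
    (hd : DifferentiableAt ℝ (fun q : ℝ × ℝ => f q.1 q.2) (rhoY x ^ 2, sigZ x ^ 2))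
    (ha : HasDerivAt (fun p => f p (sigZ x ^ 2)) a (rhoY x ^ 2))
    (hb : HasDerivAt (f (rhoY x ^ 2)) b (sigZ x ^ 2)) :
    DifferentiableAt ℝ g x ∧
      ∀ i, pd i g x = (if i.val < 3 then a else b) * (2 * x i) := by
  have hg : DifferentiableAt ℝ (fun z => f (rhoY z ^ 2) (sigZ z ^ 2)) x :=
    DifferentiableAt.comp (g := fun q : ℝ × ℝ => f q.1 q.2) x hd
      ((differentiableAt_sq x).1.prodMk (differentiableAt_sq x).2)
  refine ⟨hg.congr_of_eventuallyEq he, fun i => ?_⟩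
  rw [pd, he.fderiv_eq, ← hg.lineDeriv_eq_fderiv, lineDeriv]
  simp only [(sq_line x i _).1, (sq_line x i _).2]
  have hq : HasDerivAt (fun t : ℝ => 2 * t * x i + t ^ 2) (2 * x i) 0 :=
    ((((hasDerivAt_id' (0 : ℝ)).const_mul 2).mul_const (x i)).fun_add
      (hasDerivAt_pow 2 (0 : ℝ))).congr_deriv (by simp)
  by_cases h : i.val < 3 <;> simp only [h, if_true, if_false, add_zero]
  · exact (HasDerivAt.comp_of_eq (h₂ := fun p => f p (sigZ x ^ 2)) (0 : ℝ) ha
      (hq.const_add (rhoY x ^ 2)) (by simp)).deriv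
  · exact (HasDerivAt.comp_of_eq (h₂ := f (rhoY x ^ 2)) (0 : ℝ) hb
      (hq.const_add (sigZ x ^ 2)) (by simp)).deriv

/-- The divergence of a radial combination of the two parts. -/
lemma div_radial {gy gz : Euc 7 → ℝ} {fy fz : ℝ → ℝ → ℝ} {a₁ b₁ a₂ b₂ : ℝ} {x : Euc 7}
    (hey : gy =ᶠ[𝓝 x] fun z => fy (rhoY z ^ 2) (sigZ z ^ 2))
    (hdy : DifferentiableAt ℝ (fun q : ℝ × ℝ => fy q.1 q.2) (rhoY x ^ 2, sigZ x ^ 2))
    (hay : HasDerivAt (fun p => fy p (sigZ x ^ 2)) a₁ (rhoY x ^ 2))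
    (hby : HasDerivAt (fy (rhoY x ^ 2)) b₁ (sigZ x ^ 2))
    (hez : gz =ᶠ[𝓝 x] fun z => fz (rhoY z ^ 2) (sigZ z ^ 2))
    (hdz : DifferentiableAt ℝ (fun q : ℝ × ℝ => fz q.1 q.2) (rhoY x ^ 2, sigZ x ^ 2))
    (haz : HasDerivAt (fun p => fz p (sigZ x ^ 2)) a₂ (rhoY x ^ 2))
    (hbz : HasDerivAt (fz (rhoY x ^ 2)) b₂ (sigZ x ^ 2)) :
    (∑ i : Fin 7, pd i (fun z => (if i.val < 3 then gy z else gz z) * z i) x) =
      3 * gy x + 4 * gz x + 2 * rhoY x ^ 2 * a₁ + 2 * sigZ x ^ 2 * b₂ := by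
  obtain ⟨d1, p1⟩ := pd_radial hey hdy hay hby
  obtain ⟨d2, p2⟩ := pd_radial hez hdz haz hbz
  have e : ∀ i : Fin 7, pd i (fun z => (if i.val < 3 then gy z else gz z) * z i) x =
      if i.val < 3 then gy x + a₁ * (2 * x i) * x i else gz x + b₂ * (2 * x i) * x i := fun i => by
    have hc : DifferentiableAt ℝ (fun z : Euc 7 => z i) x :=
      (EuclideanSpace.proj (𝕜 := ℝ) i).differentiableAt
    have hp : pd i (fun z : Euc 7 => z i) x = 1 := by
      have h : (fun z : Euc 7 => z i) = EuclideanSpace.proj (𝕜 := ℝ) i := rfl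
      rw [pd, h, ContinuousLinearMap.fderiv]
      simp
    by_cases h : i.val < 3 <;> simp only [h, if_true, if_false]
    · rw [pd_mul i d1 hc, p1 i, if_pos h, hp]; ring
    · rw [pd_mul i d2 hc, p2 i, if_neg h, hp]; ring
  simp only [e, rhoY_sq, sigZ_sq, Fin.sum_univ_seven]
  simp
  ring

/-- The open side of the positivity set. -/
lemma inside_nhds {x : Euc 7} (h : sigZ x < 2 * rhoY x) :
    ∀ᶠ z in 𝓝 x, sigZ z < 2 * rhoY z ∧ 0 < rhoY z := by
  have hc : Continuous fun z => 2 * rhoY z := continuous_const.mul continuous_rhoY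
  filter_upwards [(continuous_sigZ.tendsto x).eventually_lt (hc.tendsto x) h] with z hz
  exact ⟨hz, by linarith [sigZ_nonneg z]⟩

/-- The open side of the zero set. -/
lemma outside_nhds {x : Euc 7} (h : 2 * rhoY x < sigZ x) :
    ∀ᶠ z in 𝓝 x, 2 * rhoY z < sigZ z ∧ 0 < sigZ z := by
  have hc : Continuous fun z => 2 * rhoY z := continuous_const.mul continuous_rhoY
  filter_upwards [(hc.tendsto x).eventually_lt (continuous_sigZ.tendsto x) h] with z hz
  exact ⟨hz, by linarith [rhoY_nonneg z]⟩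

lemma hat_inside {x : Euc 7} (h : sigZ x < 2 * rhoY x) :
    hatR x = rhoY x ∧ hatS x = 2 * rhoY x ∧ hatE x = 0 ∧
      hatT x = 1 - sigZ x ^ 2 / (4 * rhoY x ^ 2) := by
  have hr : 0 < rhoY x := by linarith [sigZ_nonneg x]
  have h1 : hatR x = rhoY x := max_eq_left (by linarith)
  have h2 : hatS x = 2 * rhoY x := max_eq_right h.le
  refine ⟨h1, h2, ?_, by rw [hatT, h1]⟩
  rw [hatE, h2]
  field_simp
  ring

lemma hat_outside {x : Euc 7} (h : 2 * rhoY x < sigZ x) :
    hatR x = sigZ x / 2 ∧ hatS x = sigZ x ∧ hatT x = 0 ∧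
      hatE x = 1 / 4 - rhoY x ^ 2 / sigZ x ^ 2 := by
  have hs : 0 < sigZ x := by linarith [rhoY_nonneg x]
  have h1 : hatR x = sigZ x / 2 := max_eq_right (by linarith)
  have h2 : hatS x = sigZ x := max_eq_left h.le
  refine ⟨h1, h2, ?_, by rw [hatE, h2]⟩
  rw [hatT, h1]
  field_simp
  ring

theorem pd_cone_inside {x : Euc 7} (h : sigZ x < 2 * rhoY x) (i : Fin 7) :
    pd i cone x = (if i.val < 3 then (2 - hatT x) / (Real.sqrt 5 * rhoY x)
      else -(1 / 2) / (Real.sqrt 5 * rhoY x)) * x i := by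
  have hr : 0 < rhoY x := by linarith [sigZ_nonneg x]
  have hP : 0 < rhoY x ^ 2 := by positivity
  have h5 := sqrt_five_pos
  have e2 : √(rhoY x ^ 2) = rhoY x := Real.sqrt_sq hr.le
  have ha : HasDerivAt (fun p => (√p - sigZ x ^ 2 / (4 * √p)) / Real.sqrt 5) _ (rhoY x ^ 2) :=
    ((Real.hasDerivAt_sqrt hP.ne').sub ((hasDerivAt_const _ _).div
      ((Real.hasDerivAt_sqrt hP.ne').const_mul 4)
      (by rw [e2]; positivity))).div_const _
  have hb : HasDerivAt (fun s => (√(rhoY x ^ 2) - s / (4 * √(rhoY x ^ 2))) / Real.sqrt 5) _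
      (sigZ x ^ 2) :=
    (((hasDerivAt_id' _).div_const _).const_sub _).div_const _
  have hd : DifferentiableAt ℝ (fun q : ℝ × ℝ => (√q.1 - q.2 / (4 * √q.1)) / Real.sqrt 5)
      (rhoY x ^ 2, sigZ x ^ 2) :=
    have hf : DifferentiableAt ℝ (fun q : ℝ × ℝ => q.1) (rhoY x ^ 2, sigZ x ^ 2) :=
      differentiableAt_fst
    have hg : DifferentiableAt ℝ (fun q : ℝ × ℝ => q.2) (rhoY x ^ 2, sigZ x ^ 2) :=
      differentiableAt_snd
    have hq : DifferentiableAt ℝ (fun q : ℝ × ℝ => √q.1) (rhoY x ^ 2, sigZ x ^ 2) :=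
      hf.sqrt hP.ne'
    have hden : DifferentiableAt ℝ (fun q : ℝ × ℝ => 4 * √q.1) (rhoY x ^ 2, sigZ x ^ 2) :=
      hq.const_mul 4
    diff_scale (hq.fun_sub (diff_quot hg hden (v := 4 * √(rhoY x ^ 2)) (by rw [e2]; positivity) rfl)) _
  have he : cone =ᶠ[𝓝 x] fun z =>
      (√(rhoY z ^ 2) - sigZ z ^ 2 / (4 * √(rhoY z ^ 2))) / Real.sqrt 5 := by
    filter_upwards [inside_nhds h] with z hz
    rw [cone, Real.sqrt_sq (rhoY_nonneg z), max_eq_left]
    rw [sub_nonneg, div_le_iff₀ (by linarith [hz.2])]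
    nlinarith [sigZ_nonneg z, hz.1, hz.2]
  rw [(pd_radial (f := fun p s => (√p - s / (4 * √p)) / Real.sqrt 5) he hd ha hb).2 i,
    (hat_inside h).2.2.2]
  simp only [e2]
  split_ifs <;> field_simp <;> ring

/-- A profile of `τ` over a power of `ρ`, differentiated in `(ρ², σ²)`. -/
lemma inside_profile {Z : ℝ → ℝ} {Z' : ℝ} {P S : ℝ} (hP : 0 < P)
    (hZ : HasDerivAt Z Z' (1 - S / (4 * P))) :
    DifferentiableAt ℝ (fun q : ℝ × ℝ => Z (1 - q.2 / (4 * q.1))) (P, S) ∧
      HasDerivAt (fun p => Z (1 - S / (4 * p))) (Z' * (S / (4 * P ^ 2))) P ∧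
      HasDerivAt (fun s => Z (1 - s / (4 * P))) (Z' * (-1 / (4 * P))) S := by
  have hf : DifferentiableAt ℝ (fun q : ℝ × ℝ => q.1) (P, S) := differentiableAt_fst
  have hg : DifferentiableAt ℝ (fun q : ℝ × ℝ => q.2) (P, S) := differentiableAt_snd
  have hden : DifferentiableAt ℝ (fun q : ℝ × ℝ => 4 * q.1) (P, S) := hf.const_mul 4
  have hin : DifferentiableAt ℝ (fun q : ℝ × ℝ => q.2 / (4 * q.1)) (P, S) :=
    diff_quot hg hden (v := 4 * P) (by positivity) rfl
  refine ⟨DifferentiableAt.comp (g := Z) (f := fun q : ℝ × ℝ => 1 - q.2 / (4 * q.1)) (P, S)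
    hZ.differentiableAt (hin.const_sub 1),
    ?_, ?_⟩
  · refine HasDerivAt.comp (h₂ := Z) P hZ ?_
    refine ((((hasDerivAt_const P S).div ((hasDerivAt_id' P).const_mul 4) (by positivity)).const_sub
      1)).congr_deriv ?_
    field_simp
    ring
  · refine HasDerivAt.comp (h₂ := Z) S hZ ?_
    exact (((hasDerivAt_id' S).div_const (4 * P)).const_sub 1).congr_deriv (by ring)

/-- A profile of `e`, differentiated in `(ρ², σ²)`. -/
lemma outside_profile {Z : ℝ → ℝ} {Z' : ℝ} {P S : ℝ} (hS : 0 < S)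
    (hZ : HasDerivAt Z Z' (1 / 4 - P / S)) :
    DifferentiableAt ℝ (fun q : ℝ × ℝ => Z (1 / 4 - q.1 / q.2)) (P, S) ∧
      HasDerivAt (fun p => Z (1 / 4 - p / S)) (Z' * (-1 / S)) P ∧
      HasDerivAt (fun s => Z (1 / 4 - P / s)) (Z' * (P / S ^ 2)) S := by
  have hf : DifferentiableAt ℝ (fun q : ℝ × ℝ => q.1) (P, S) := differentiableAt_fst
  have hg : DifferentiableAt ℝ (fun q : ℝ × ℝ => q.2) (P, S) := differentiableAt_snd
  refine ⟨DifferentiableAt.comp (g := Z) (f := fun q : ℝ × ℝ => 1 / 4 - q.1 / q.2) (P, S)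
    hZ.differentiableAt ((diff_quot hf hg hS.ne' rfl).const_sub _), ?_, ?_⟩
  · refine HasDerivAt.comp (h₂ := Z) P hZ ?_
    exact (((hasDerivAt_id' P).div_const S).const_sub _).congr_deriv (by ring)
  · refine HasDerivAt.comp (h₂ := Z) S hZ ?_
    exact (((hasDerivAt_const S P).div (hasDerivAt_id' S) hS.ne').const_sub _).congr_deriv (by ring)

lemma hasDerivAt_profiles (t : ℝ) :
    HasDerivAt pM (pM' t) t ∧ HasDerivAt pN (pN' t) t ∧
    HasDerivAt pU (-1 - pM t - t * pM' t) t ∧ HasDerivAt pV (-pN t - t * pN' t) t ∧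
    HasDerivAt qM (qM' t) t ∧ HasDerivAt qN (qN' t) t ∧
    HasDerivAt qP (qP' t) t ∧ HasDerivAt qQ (qQ' t) t := by
  have i := hasDerivAt_id' t
  have hM : HasDerivAt pM (pM' t) t := by
    refine ((i.const_mul (12 / 25)).const_sub (-36 / 25)).sub
      ((hasDerivAt_pow 2 t).const_mul (7 / 25)) |>.congr_deriv ?_
    simp [pM']; ring
  have hN : HasDerivAt pN (pN' t) t := by
    refine ((i.const_mul (9 / 25)).const_sub (-3 / 25)).sub
      ((hasDerivAt_pow 2 t).const_mul (6 / 25)) |>.congr_deriv ?_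
    simp [pN']; ring
  refine ⟨hM, hN, ?_, ?_, ?_, ?_, ?_, ?_⟩
  · exact ((i.const_sub 2).sub (i.mul hM)).congr_deriv (by ring)
  · exact ((i.mul hN).const_sub (-1 / 2)).congr_deriv (by ring)
  · refine (((i.const_mul (223 / 25)).const_sub (-144 / 25)).sub
      ((hasDerivAt_pow 2 t).const_mul (198 / 25))).sub ((hasDerivAt_pow 3 t).const_mul (514 / 5))
      |>.congr_deriv ?_
    simp [qM']; ring
  · refine (((i.const_mul (251 / 25)).const_add (-12 / 25)).add
      ((hasDerivAt_pow 2 t).const_mul (307 / 5))).sub ((hasDerivAt_pow 3 t).const_mul (453 / 5))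
      |>.congr_deriv ?_
    simp [qN']; ring
  · refine (((i.const_mul (34 / 25)).const_add 4).add
      ((hasDerivAt_pow 2 t).const_mul (138 / 5))).sub ((hasDerivAt_pow 3 t).const_mul (188 / 5))
      |>.congr_deriv ?_
    simp [qP']; ring
  · refine (((i.const_mul (153 / 25)).const_sub (-1)).add
      ((hasDerivAt_pow 2 t).const_mul (116 / 5))).sub ((hasDerivAt_pow 3 t).const_mul (368 / 5))
      |>.congr_deriv ?_
    simp [qQ']; ring

theorem div_inside {x : Euc 7} (h : sigZ x < 2 * rhoY x) :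
    (∑ i, pd i (fieldA i) x) = inDivA (hatT x) / (Real.sqrt 5 * rhoY x) ∧
      (∑ i, pd i (fieldK i) x) = inD (hatT x) / rhoY x ^ 2 := by
  have hr : 0 < rhoY x := by linarith [sigZ_nonneg x]
  have hP : 0 < rhoY x ^ 2 := by positivity
  have h5 := sqrt_five_pos
  obtain ⟨eR, eS, eE, eT⟩ := hat_inside h
  have e2 : √(rhoY x ^ 2) = rhoY x := Real.sqrt_sq hr.le
  have hfst : DifferentiableAt ℝ (fun q : ℝ × ℝ => q.1) (rhoY x ^ 2, sigZ x ^ 2) :=
    differentiableAt_fst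
  have hsq : DifferentiableAt ℝ (fun q : ℝ × ℝ => √q.1) (rhoY x ^ 2, sigZ x ^ 2) :=
    hfst.sqrt hP.ne'
  have hne : √(rhoY x ^ 2) ≠ 0 := by rw [e2]; exact hr.ne'
  obtain ⟨dM, dN, dU, dV, -, -, -, -⟩ := hasDerivAt_profiles (1 - sigZ x ^ 2 / (4 * rhoY x ^ 2))
  obtain ⟨uM, aM, bM⟩ := inside_profile hP dM
  obtain ⟨uN, aN, bN⟩ := inside_profile hP dN
  obtain ⟨uU, aU, bU⟩ := inside_profile hP dU
  obtain ⟨uV, aV, bV⟩ := inside_profile hP dV
  have q0 : qP 0 = 4 ∧ qQ 0 = -1 ∧ qM 0 = -144 / 25 ∧ qN 0 = -12 / 25 := by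
    simp [qP, qQ, qM, qN]
  have hev : ∀ᶠ z in 𝓝 x, sigZ z < 2 * rhoY z ∧ 0 < rhoY z := inside_nhds h
  constructor
  · refine Eq.trans (div_radial (gy := aY) (gz := aZ)
      (fy := fun p s => pU (1 - s / (4 * p)) / √p / Real.sqrt 5)
      (fz := fun p s => pV (1 - s / (4 * p)) / √p / Real.sqrt 5) ?_
      (diff_scale (diff_quot uU hsq hne rfl) _)
      ((aU.div (Real.hasDerivAt_sqrt hP.ne') hne).div_const _)
      ((bU.div_const _).div_const _) ?_
      (diff_scale (diff_quot uV hsq hne rfl) _)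
      ((aV.div (Real.hasDerivAt_sqrt hP.ne') hne).div_const _)
      ((bV.div_const _).div_const _)) ?_
    · filter_upwards [hev] with z hz
      obtain ⟨a, b, c, d⟩ := hat_inside hz.1
      simp only [aY, a, b, c, d, q0.1, sub_self, zero_div, add_zero, Real.sqrt_sq (rhoY_nonneg z)]
    · filter_upwards [hev] with z hz
      obtain ⟨a, b, c, d⟩ := hat_inside hz.1
      simp only [aZ, a, b, c, d, q0.2.1, neg_add_cancel, zero_div, add_zero,
        Real.sqrt_sq (rhoY_nonneg z)]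
    · simp only [aY, aZ, eR, eS, eE, q0.1, q0.2.1, sub_self, neg_add_cancel, zero_div, add_zero, e2,
        eT, inDivA]
      field_simp
      ring
  · refine Eq.trans (div_radial (gy := kY) (gz := kZ)
      (fy := fun p s => pM (1 - s / (4 * p)) / p) (fz := fun p s => pN (1 - s / (4 * p)) / p) ?_
      (diff_quot uM hfst hP.ne' rfl) (aM.div (hasDerivAt_id' _) hP.ne') (bM.div_const _) ?_
      (diff_quot uN hfst hP.ne' rfl) (aN.div (hasDerivAt_id' _) hP.ne') (bN.div_const _)) ?_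
    · filter_upwards [hev] with z hz
      obtain ⟨a, b, c, d⟩ := hat_inside hz.1
      simp only [kY, a, b, c, d, q0.2.2.1]
      ring
    · filter_upwards [hev] with z hz
      obtain ⟨a, b, c, d⟩ := hat_inside hz.1
      simp only [kZ, a, b, c, d, q0.2.2.2]
      ring
    · simp only [kY, kZ, eR, eS, eE, q0.2.2.1, q0.2.2.2, eT, inD]
      field_simp
      ring

theorem div_outside {x : Euc 7} (h : 2 * rhoY x < sigZ x) :
    (∑ i, pd i (fieldA i) x) = outDivA (hatE x) / (Real.sqrt 5 * sigZ x) ∧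
      (∑ i, pd i (fieldK i) x) = outD (hatE x) / sigZ x ^ 2 := by
  have hs : 0 < sigZ x := by linarith [rhoY_nonneg x]
  have hS : 0 < sigZ x ^ 2 := by positivity
  have h5 := sqrt_five_pos
  obtain ⟨eR, eS, eT, eE⟩ := hat_outside h
  have e2 : √(sigZ x ^ 2) = sigZ x := Real.sqrt_sq hs.le
  have hsnd : DifferentiableAt ℝ (fun q : ℝ × ℝ => q.2) (rhoY x ^ 2, sigZ x ^ 2) :=
    differentiableAt_snd
  have hsq : DifferentiableAt ℝ (fun q : ℝ × ℝ => √q.2) (rhoY x ^ 2, sigZ x ^ 2) :=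
    hsnd.sqrt hS.ne'
  have hne : √(sigZ x ^ 2) ≠ 0 := by rw [e2]; exact hs.ne'
  obtain ⟨-, -, -, -, dM, dN, dP, dQ⟩ := hasDerivAt_profiles (1 / 4 - rhoY x ^ 2 / sigZ x ^ 2)
  obtain ⟨uM, aM, bM⟩ := outside_profile hS dM
  obtain ⟨uN, aN, bN⟩ := outside_profile hS dN
  obtain ⟨uP, aP, bP⟩ := outside_profile hS dP
  obtain ⟨uQ, aQ, bQ⟩ := outside_profile hS dQ
  have p0 : pU 0 = 2 ∧ pV 0 = -1 / 2 ∧ pM 0 = -36 / 25 ∧ pN 0 = -3 / 25 := by
    simp [pU, pV, pM, pN]
  have hev : ∀ᶠ z in 𝓝 x, 2 * rhoY z < sigZ z ∧ 0 < sigZ z := outside_nhds h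
  constructor
  · refine Eq.trans (div_radial (gy := aY) (gz := aZ)
      (fy := fun p s => qP (1 / 4 - p / s) / √s / Real.sqrt 5)
      (fz := fun p s => qQ (1 / 4 - p / s) / √s / Real.sqrt 5) ?_
      (diff_scale (diff_quot uP hsq hne rfl) _)
      ((aP.div_const _).div_const _)
      ((bP.div (Real.hasDerivAt_sqrt hS.ne') hne).div_const _) ?_
      (diff_scale (diff_quot uQ hsq hne rfl) _)
      ((aQ.div_const _).div_const _)
      ((bQ.div (Real.hasDerivAt_sqrt hS.ne') hne).div_const _)) ?_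
    · filter_upwards [hev] with z hz
      obtain ⟨a, b, c, d⟩ := hat_outside hz.1
      simp only [aY, a, b, c, d, p0.1, Real.sqrt_sq (sigZ_nonneg z)]
      field_simp
      ring
    · filter_upwards [hev] with z hz
      obtain ⟨a, b, c, d⟩ := hat_outside hz.1
      simp only [aZ, a, b, c, d, p0.2.1, Real.sqrt_sq (sigZ_nonneg z)]
      field_simp
      ring
    · simp only [aY, aZ, eR, eS, eT, p0.1, p0.2.1, e2, eE, outDivA]
      field_simp
      ring
  · refine Eq.trans (div_radial (gy := kY) (gz := kZ)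
      (fy := fun p s => qM (1 / 4 - p / s) / s) (fz := fun p s => qN (1 / 4 - p / s) / s) ?_
      (diff_quot uM hsnd hS.ne' rfl) (aM.div_const _) (bM.div (hasDerivAt_id' _) hS.ne') ?_
      (diff_quot uN hsnd hS.ne' rfl) (aN.div_const _) (bN.div (hasDerivAt_id' _) hS.ne')) ?_
    · filter_upwards [hev] with z hz
      obtain ⟨a, b, c, d⟩ := hat_outside hz.1
      simp only [kY, a, b, c, d, p0.2.2.1]
      field_simp
      ring
    · filter_upwards [hev] with z hz
      obtain ⟨a, b, c, d⟩ := hat_outside hz.1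
      simp only [kZ, a, b, c, d, p0.2.2.2]
      field_simp
      ring
    · simp only [kY, kZ, eR, eS, eT, p0.2.2.1, p0.2.2.2, eE, outD]
      field_simp
      ring

end

end Vale.Agent.P098.Seven
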