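import Vale.Agent.P098.Seven.Calibration

/-!
P098, the dimension seven: a calibrated function is a global minimizer; the competitor is first
truncated above.
-/

open MeasureTheory Filter Metric
open scoped Topology ContDiff NNReal RealInnerProductSpace

namespace Vale.Agent.P098.Seven

variable {d : ℕ} {u v f f' G : Euc d → ℝ} {g g' : Fin d → Euc d → ℝ} {a K : Euc d → Euc d} {A : ℝ}
variable {B : Set (Euc d)}

lemma hasWeakGrad_congr (hg : HasWeakGrad B f g) (hf : f' =ᵐ[volume.restrict B] f)
    (hgg : ∀ i, g' i =ᵐ[volume.restrict B] g i) : HasWeakGrad B f' g' := by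
  refine ⟨fun i => (hg.1 i).ae_eq (hgg i).symm, fun i φ hφ hs hsub => ?_⟩
  have e1 : ∫ x in B, f' x * pd i φ x = ∫ x in B, f x * pd i φ x :=
    integral_congr_ae (hf.mono fun x hx => by simp only [hx])
  have e2 : ∫ x in B, g' i x * φ x = ∫ x in B, g i x * φ x :=
    integral_congr_ae ((hgg i).mono fun x hx => by simp only [hx])
  rw [e1, e2]
  exact hg.2 i φ hφ hs hsub

lemma hasWeakGrad_neg (hg : HasWeakGrad B f g) :
    HasWeakGrad B (fun x => -f x) fun i x => -g i x := by
  refine ⟨fun i => (hg.1 i).neg, fun i φ hφ hs hsub => ?_⟩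
  simp only [neg_mul, integral_neg, hg.2 i φ hφ hs hsub]

/-- Truncation from above. -/
lemma hasWeakGrad_min {c : Euc d} {R R' : ℝ} (hR : R < R') (M : ℝ)
    (hf : MemLp f 2 (volume.restrict (ball c R'))) (hg : HasWeakGrad (ball c R') f g) :
    MemLp (fun x => min (f x) M) 2 (volume.restrict (ball c R)) ∧
      HasWeakGrad (ball c R) (fun x => min (f x) M)
        fun i => {x | f x ≤ M}.indicator (g i) := by
  have hsub : ball c R ⊆ ball c R' := ball_subset_ball hR.le
  have := isFiniteMeasure_restrict (isBounded_ball : Bornology.IsBounded (ball c R'))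
  have := isFiniteMeasure_restrict (isBounded_ball : Bornology.IsBounded (ball c R))
  have hc : HasWeakGrad (ball c R') (fun _ => -M) fun _ _ => 0 :=
    hasWeakGrad_congr (hasWeakGrad_pd (LipschitzWith.const (-M)) isBounded_ball)
      EventuallyEq.rfl fun i => Eventually.of_forall fun x => by simp [pd]
  have hfc : MemLp (fun x => f x + -M) 2 (volume.restrict (ball c R')) :=
    hf.add (memLp_const _)
  have hp := (hg.add hc isBounded_ball hf (memLp_const _)).posPart hR hfc
  have hfR := hf.mono_measure (Measure.restrict_mono hsub le_rfl)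
  have hpm : MemLp (fun x => -max (f x + -M) 0) 2 (volume.restrict (ball c R)) :=
    ((hfc.mono_measure (Measure.restrict_mono hsub le_rfl)).pos_part).neg
  have h := (hg.mono hsub).add (hasWeakGrad_neg hp) isBounded_ball hfR hpm
  have e : ∀ x, min (f x) M = f x + -max (f x + -M) 0 := fun x => by
    rcases le_total (f x) M with hx | hx
    · rw [min_eq_left hx, max_eq_right (by linarith), neg_zero, add_zero]
    · rw [min_eq_right hx, max_eq_left (by linarith)]; ring
  refine ⟨(hfR.add hpm).ae_eq (Eventually.of_forall fun x => (e x).symm), ?_⟩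
  refine hasWeakGrad_congr h (Eventually.of_forall e) fun i => Eventually.of_forall fun x => ?_
  by_cases hx : f x ≤ M
  · have h2 : ¬ 0 < f x + -M := by linarith
    simp [hx, h2]
  · have h2 : 0 < f x + -M := by linarith [not_le.1 hx]
    simp [hx, h2, not_le.1 hx]

/-- Where a nonnegative function vanishes, so does its weak gradient. -/
lemma ae_grad_eq_zero {c : Euc d} {R R' : ℝ} (hR : R < R')
    (hf : MemLp f 2 (volume.restrict (ball c R'))) (hg : HasWeakGrad (ball c R') f g)
    (h0 : ∀ᵐ x ∂volume.restrict (ball c R'), 0 ≤ f x) (i : Fin d) :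
    ∀ᵐ x ∂volume.restrict (ball c R), f x = 0 → g i x = 0 := by
  have hsub : ball c R ⊆ ball c R' := ball_subset_ball hR.le
  have e : (fun x => max (f x) 0) =ᵐ[volume.restrict (ball c R)] f :=
    ae_restrict_of_ae_restrict_of_subset hsub (h0.mono fun x hx => max_eq_left hx)
  filter_upwards [(hg.posPart hR hf).unique isOpen_ball (hg.mono hsub) e i] with x hx h
  rw [← hx, Set.indicator_of_notMem]
  show ¬ 0 < f x
  rw [h]
  exact lt_irrefl 0

/-- The square of a bounded nonnegative function. -/
lemma hasWeakGrad_half_sq {c : Euc d} {R R' M : ℝ} (hR : R < R') (hM : 0 ≤ M)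
    (hf : MemLp f 2 (volume.restrict (ball c R'))) (hg : HasWeakGrad (ball c R') f g)
    (hb : ∀ᵐ x ∂volume.restrict (ball c R'), 0 ≤ f x ∧ f x ≤ M) :
    HasWeakGrad (ball c R) (fun x => f x ^ 2 / 2) fun i x => f x * g i x := by
  set q : ℝ → ℝ := fun s => max (min s M) 0 with hq
  have hqc : Continuous q := by fun_prop
  set F : ℝ → ℝ := fun t => ∫ s in (0 : ℝ)..t, q s with hF
  have hFd : deriv F = q := funext fun t => hqc.deriv_integral q 0 t
  have hFC : ContDiff ℝ 1 F := contDiff_one_iff_deriv.2
    ⟨fun t => (hqc.integral_hasStrictDerivAt 0 t).hasDerivAt.differentiableAt, hFd.symm ▸ hqc⟩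
  have h := hg.comp hR hf hFC (M := M) fun t => by
    rw [hFd, abs_of_nonneg (le_max_right _ _)]
    exact max_le (min_le_right _ _) hM
  have hb' := ae_restrict_of_ae_restrict_of_subset (ball_subset_ball hR.le) hb
  refine hasWeakGrad_congr h (hb'.mono fun x hx => ?_) fun i => hb'.mono fun x hx => ?_
  · simp only [hF]
    rw [intervalIntegral.integral_congr (g := fun s : ℝ => s) fun s hs => ?_, integral_id]
    · ring
    · rw [Set.uIcc_of_le hx.1] at hs
      simp [hq, min_eq_left (hs.2.trans hx.2), hs.1]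
  · rw [hFd]
    simp [hq, min_eq_left hx.2, hx.1]

lemma integral_posSet_indicator {c : Euc d} {R : ℝ}
    (hf : AEStronglyMeasurable f (volume.restrict (ball c R))) :
    ∫ x in ball c R, (posSet f).indicator 1 x = (volume.restrict (ball c R)).real (posSet f) := by
  set μ := volume.restrict (ball c R)
  have hS : NullMeasurableSet (posSet f) μ :=
    nullMeasurableSet_lt aemeasurable_const hf.aemeasurable
  rw [integral_congr_ae (indicator_ae_eq_of_ae_eq_set hS.toMeasurable_ae_eq.symm),
    integral_indicator_one (measurableSet_toMeasurable _ _),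
    measureReal_congr hS.toMeasurable_ae_eq]

lemma energyR_eq_integral_dens {c : Euc d} {R : ℝ}
    (hf : MemLp f 2 (volume.restrict (ball c R))) (hg : HasWeakGrad (ball c R) f g) :
    IntegrableOn (dens f g) (ball c R) ∧
      energyR f g (ball c R) = ∫ x in ball c R, dens f g x := by
  have := isFiniteMeasure_restrict (isBounded_ball : Bornology.IsBounded (ball c R))
  have hi : IntegrableOn ((posSet f).indicator 1 : Euc d → ℝ) (ball c R) :=
    (integrable_const (1 : ℝ)).mono (aestronglyMeasurable_const.indicator₀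
      (nullMeasurableSet_lt aemeasurable_const hf.1.aemeasurable))
      (Eventually.of_forall fun x => norm_indicator_le_norm_self _ _)
  refine ⟨(integrableOn_sum_sq hg.1).add hi, ?_⟩
  simp only [energyR, dens]
  rw [integral_add (integrableOn_sum_sq hg.1) hi, integral_posSet_indicator hf.1]

/-- A calibrated function is a global minimizer. -/
theorem IsCalibration.isGlobalMinimizer (h : IsCalibration u G a K A) (hd : 3 ≤ d) :
    IsGlobalMinimizer u := by
  obtain ⟨L, hL⟩ := h.lip_u
  refine ⟨Eventually.of_forall h.nonneg, fun c R => ⟨⟨memLp_lipschitz hL c R, _,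
    hasWeakGrad_pd hL isBounded_ball⟩, fun v g k hg hv hk hnn hK => ?_⟩⟩
  obtain ⟨K₀, hK₀c, hK₀B, hK₀⟩ := hK
  rcases le_or_gt R 0 with hR | hR
  · simp [ball_eq_empty.2 hR, sobolevEnergy]
  set pu : Fin d → Euc d → ℝ := fun i => pd i u with hpu
  have hu : MemLp u 2 (volume.restrict (ball c R)) := memLp_lipschitz hL c R
  have hug : HasWeakGrad (ball c R) u pu := hasWeakGrad_pd hL isBounded_ball
  have hgu : ∀ i, g i =ᵐ[volume.restrict (ball c R)] pu i := fun i =>
    hg.unique isOpen_ball hug EventuallyEq.rfl i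
  rw [sobolevEnergy_eq_ofReal isBounded_ball hg.1, sobolevEnergy_eq_ofReal isBounded_ball hk.1]
  refine ENNReal.ofReal_le_ofReal ?_
  obtain ⟨hdv, ev⟩ := energyR_eq_integral_dens hv hk
  obtain ⟨-, eg⟩ := energyR_eq_integral_dens hu hg
  obtain ⟨hdu, -⟩ := energyR_eq_integral_dens hu hug
  have egu : ∫ x in ball c R, dens u g x = ∫ x in ball c R, dens u pu x := by
    refine integral_congr_ae ?_
    filter_upwards [ae_all_iff.2 hgu] with x hx
    simp [dens, hx]
  rw [ev, eg, egu]
  -- the radii
  obtain ⟨R', hR', hK'⟩ := exists_lt_subset_ball hK₀c.isClosed hK₀B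
  set S := max R' (R / 2) with hS
  have hSR : S < R := max_lt hR' (by linarith)
  have hS0 : 0 < S := lt_of_lt_of_le (by linarith) (le_max_right _ _)
  set t := (R - S) / 4 with ht
  have ht0 : 0 < t := by linarith
  set R₁ := S + t
  set R₀ := S + 2 * t
  have hKS : K₀ ⊆ ball c S := hK'.trans (ball_subset_ball (le_max_left _ _))
  have h10 : R₁ < R₀ := by linarith
  have h0R : R₀ < R := by linarith
  -- outside `K₀`
  have hB' : IsOpen (ball c R ∩ K₀ᶜ) := isOpen_ball.inter hK₀c.isClosed.isOpen_compl
  have hout : ∀ᵐ x ∂volume.restrict (ball c R), x ∉ K₀ → v x = u x ∧ ∀ i, k i x = pu i x := by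
    have h1 : v =ᵐ[volume.restrict (ball c R ∩ K₀ᶜ)] u := by
      filter_upwards [ae_restrict_of_ae_restrict_of_subset Set.inter_subset_left hK₀,
        ae_restrict_mem hB'.measurableSet] with x hx hm
      exact hx hm.2
    have h2 : ∀ i, k i =ᵐ[volume.restrict (ball c R ∩ K₀ᶜ)] pu i := fun i =>
      (hk.mono Set.inter_subset_left).unique hB' (hug.mono Set.inter_subset_left) h1 i
    have h3 : ∀ᵐ x ∂volume.restrict (ball c R ∩ K₀ᶜ), ∀ i, k i x = pu i x := ae_all_iff.2 h2
    rw [ae_restrict_iff' hB'.measurableSet] at h3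
    filter_upwards [hK₀, ae_restrict_of_ae h3, ae_restrict_mem measurableSet_ball] with x hx hx3 hm
    exact fun hn => ⟨hx hn, hx3 ⟨hm, hn⟩⟩
  obtain ⟨M₀, hM₀⟩ := (isCompact_closedBall c R).exists_bound_of_continuousOn
    hL.continuous.continuousOn
  set M := max M₀ 0 + 1 with hMdef
  have hM : 0 < M := by positivity
  have huM : ∀ x ∈ ball c R, u x ≤ M := fun x hx => by
    have := hM₀ x (ball_subset_closedBall hx)
    rw [Real.norm_eq_abs, abs_of_nonneg (h.nonneg x)] at this
    linarith [le_max_left M₀ 0]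
  -- the truncated competitor
  obtain ⟨hwm, hwg⟩ := hasWeakGrad_min h0R M hv hk
  set w : Euc d → ℝ := fun x => min (v x) M
  set kw : Fin d → Euc d → ℝ := fun i => {x | v x ≤ M}.indicator (k i)
  have s10 : ball c R₁ ⊆ ball c R₀ := ball_subset_ball h10.le
  have s0R : ball c R₀ ⊆ ball c R := ball_subset_ball h0R.le
  have hw0 : ∀ᵐ x ∂volume.restrict (ball c R₀), 0 ≤ w x ∧ w x ≤ M :=
    (ae_restrict_of_ae_restrict_of_subset s0R hnn).mono fun x hx =>
      ⟨le_min hx hM.le, min_le_right _ _⟩
  have hw2 := hasWeakGrad_half_sq h10 hM.le hwm hwg hw0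
  have hu2 := hasWeakGrad_half_sq (c := c) h10 hM.le (memLp_lipschitz hL c R₀)
    (hasWeakGrad_pd hL isBounded_ball)
    ((ae_restrict_mem measurableSet_ball).mono fun x hx => ⟨h.nonneg x, huM x (s0R hx)⟩)
  have hwz : ∀ i, ∀ᵐ x ∂volume.restrict (ball c R₁), w x = 0 → kw i x = 0 := fun i =>
    ae_grad_eq_zero h10 hwm hwg (hw0.mono fun x hx => hx.1) i
  have hweq : ∀ᵐ x ∂volume.restrict (ball c R₁), x ∉ K₀ → w x = u x ∧ ∀ i, kw i x = pu i x := by
    filter_upwards [ae_restrict_of_ae_restrict_of_subset (s10.trans s0R) hout,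
      ae_restrict_mem measurableSet_ball] with x hx hm hn
    obtain ⟨a1, a2⟩ := hx hn
    have hle : v x ≤ M := a1 ▸ huM x (s0R (s10 hm))
    exact ⟨by simp [w, a1, huM x (s0R (s10 hm))], fun i => by simp [kw, hle, a2]⟩
  obtain ⟨hdw, hcore⟩ := h.core hd hS0 (show S < R₁ by linarith) hK₀c.isClosed hKS
    (hwm.mono_measure (Measure.restrict_mono s10 le_rfl))
    (ae_restrict_of_ae_restrict_of_subset s10 hw0) (fun x hx => huM x (s0R (s10 hx)))
    (hwg.mono s10) hw2 hu2 hwz hweq
  have hwv : ∀ x, dens w kw x ≤ dens v k x := fun x => by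
    simp only [dens]
    refine add_le_add (Finset.sum_le_sum fun i _ => ?_) ?_
    · by_cases hx : v x ≤ M
      · simp [kw, hx]
      · simp [kw, hx, sq_nonneg]
    · have hiff : x ∈ posSet w ↔ x ∈ posSet v := by simp [posSet, w, hM]
      by_cases hx : x ∈ posSet v
      · rw [Set.indicator_of_mem hx, Set.indicator_of_mem (hiff.2 hx)]
      · rw [Set.indicator_of_notMem hx, Set.indicator_of_notMem fun hh => hx (hiff.1 hh)]
  have s1R : ball c R₁ ⊆ ball c R := s10.trans s0R
  have hin : ∫ x in ball c R₁, dens u pu x ≤ ∫ x in ball c R₁, dens v k x :=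
    hcore.trans (setIntegral_mono hdw (hdv.mono_set s1R) hwv)
  have hann : ∫ x in ball c R \ ball c R₁, dens u pu x =
      ∫ x in ball c R \ ball c R₁, dens v k x := by
    refine integral_congr_ae ?_
    filter_upwards [ae_restrict_of_ae_restrict_of_subset Set.sdiff_subset hout,
      ae_restrict_mem (measurableSet_ball.diff measurableSet_ball)] with x hx hm
    obtain ⟨a1, a2⟩ := hx fun hh => hm.2 (ball_subset_ball (by linarith) (hKS hh))
    simp [dens, a2, Set.indicator_apply, posSet, a1]
  rw [setIntegral_sdiff measurableSet_ball hdu s1R, setIntegral_sdiff measurableSet_ball hdv s1R]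
    at hann
  linarith

end Vale.Agent.P098.Seven
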