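import Vale.Agent.P098.Seven.Regions
import Vale.Agent.P098.Seven.Geometry
import Vale.Agent.P098.Seven.Minimizer
import Vale.Agent.P098.Regularity.Flatness.Basic

/-!
P098, dimension seven: a nonflat one-homogeneous global minimizer.
-/

open MeasureTheory Filter
open scoped Topology NNReal RealInnerProductSpace Gradient

namespace Vale.Agent.P098.Seven

/-- The field `a` as a vector field. -/
noncomputable def vecA (x : Euc 7) : Euc 7 := WithLp.toLp 2 fun i => fieldA i x

/-- The field `K` as a vector field. -/
noncomputable def vecK (x : Euc 7) : Euc 7 := WithLp.toLp 2 fun i => fieldK i x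

lemma norm_sq_add_smul (t : ℝ) (x : Euc 7) :
    ‖vecA x + t • vecK x‖ ^ 2 = ∑ i, (fieldA i x + t * fieldK i x) ^ 2 := by
  rw [EuclideanSpace.norm_sq_eq]
  exact Finset.sum_congr rfl fun i _ => by simp [vecA, vecK]

lemma ae_off_interface :
    ∀ᵐ x : Euc 7, sigZ x < 2 * rhoY x ∨ 2 * rhoY x < sigZ x := by
  have h : ∀ᵐ x : Euc 7, x ∉ {x : Euc 7 | sigZ x = 2 * rhoY x} := by
    rw [ae_iff]
    simp only [not_not, Set.setOf_mem_eq]
    exact volume_interface
  filter_upwards [h] with x hx
  exact lt_or_gt_of_ne hx

/-- The cone with its fields is a calibration. -/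
theorem exists_isCalibration : ∃ A : ℝ, IsCalibration cone gap vecA vecK A := by
  obtain ⟨A, hA⟩ := exists_field_bound
  refine ⟨A, ?_⟩
  refine {
    lip_u := exists_lipschitz_cone
    nonneg := cone_nonneg
    lip_a := fun i => by simpa [vecA] using locallyLipschitzOn_fieldA i
    lip_K := fun i => by simpa [vecK] using locallyLipschitzOn_fieldK i
    norm_a := fun x hx => (hA x hx).1
    norm_K := fun x hx => (hA x hx).2
    G_nonneg := gap_nonneg'
    G_zero := fun x hx => if_neg (not_lt.2 hx)
    below := ?_
    grad_eq := ?_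
    tight := ?_ }
  · filter_upwards [ae_off_interface] with x hx t ht
    rw [norm_sq_add_smul]
    simp only [divv, vecA, vecK]
    rcases hx with h | h
    · exact below_inside h (div_inside h).1 (div_inside h).2 t
    · exact below_outside h (div_outside h).1 (div_outside h).2 ht.le
  · refine Eventually.of_forall fun x hx => ?_
    have h : sigZ x < 2 * rhoY x := cone_pos_iff.1 hx
    ext i
    rw [gradient_coord, pd_cone_inside h i, ← field_eq_grad h i]
    simp [vecA, vecK]
  · refine Eventually.of_forall fun x hx => ?_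
    have h : sigZ x < 2 * rhoY x := cone_pos_iff.1 hx
    rw [norm_sq_add_smul]
    simp only [divv, vecA, vecK]
    exact tight_inside h (div_inside h).1 (div_inside h).2

/-- The cone is a global minimizer. -/
theorem isGlobalMinimizer_cone : IsGlobalMinimizer cone := by
  obtain ⟨A, hA⟩ := exists_isCalibration
  exact hA.isGlobalMinimizer (by norm_num)

/-- In dimension seven a nonflat one-homogeneous global minimizer exists. -/
theorem exists_nonflat_minimizer :
    ∃ u : Euc 7 → ℝ, IsGlobalMinimizer u ∧ (∀ r : ℝ, 0 < r → ∀ᵐ x, u (r • x) = r * u x) ∧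
      ¬ (u =ᵐ[volume] 0 ∨ ∃ e : Euc 7, ‖e‖ = 1 ∧ u =ᵐ[volume] fun x => max ⟪e, x⟫ 0) := by
  refine ⟨cone, isGlobalMinimizer_cone, fun r hr => Eventually.of_forall (cone_smul hr), ?_⟩
  rintro (h | ⟨e, he, h⟩)
  · exact cone_not_flat.1 h
  · exact cone_not_flat.2 e he h

end Vale.Agent.P098.Seven
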