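import Vale.Agent.P098.Seven.Certificates

/-!
P098, dimension seven: the calibration inequality at a point, from the values of the fields and
of their divergences.
-/

namespace Vale.Agent.P098.Seven

lemma sqrt_five_pos : 0 < Real.sqrt 5 := Real.sqrt_pos.2 (by norm_num)

/-- `√5 ρ div a` inside. -/
noncomputable def inDivA (τ : ℝ) : ℝ :=
  2 * pU τ + 2 * (1 - τ) * (-1 - pM τ - τ * pM' τ) + 4 * pV τ
    - 2 * (1 - τ) * (-pN τ - τ * pN' τ)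

/-- `√5 σ div a` outside. -/
noncomputable def outDivA (e : ℝ) : ℝ :=
  3 * qP e - 2 * (1 / 4 - e) * qP' e + 3 * qQ e + 2 * (1 / 4 - e) * qQ' e

/-- `σ² div K` outside. -/
noncomputable def outD (e : ℝ) : ℝ :=
  3 * qM e - 2 * (1 / 4 - e) * qM' e + 2 * qN e + 2 * (1 / 4 - e) * qN' e

/-- The gap inside is nonnegative. -/
lemma gap_nonneg {τ : ℝ} (h0 : 0 ≤ τ) (h1 : τ ≤ 1) : 0 ≤ τ * inG τ / 5 :=
  div_nonneg (mul_nonneg h0 (inG_sign h0 h1)) (by norm_num)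

/-- The calibration expression inside, completed to a square. -/
lemma inside_eq {r s τ t : ℝ} (hr : 0 < r) (hs : s ^ 2 = 4 * r ^ 2 * (1 - τ)) :
    (pU τ / r / Real.sqrt 5 + t * (pM τ / r ^ 2)) ^ 2 * r ^ 2
      + (pV τ / r / Real.sqrt 5 + t * (pN τ / r ^ 2)) ^ 2 * s ^ 2
      + 2 * t * (inDivA τ / (Real.sqrt 5 * r)) + t ^ 2 * (inD τ / r ^ 2)
    = 1 + τ * inG τ / 5 + inC τ * (Real.sqrt 5 * t / r - τ) ^ 2 / 5 := by
  have h5 : Real.sqrt 5 ^ 2 = 5 := Real.sq_sqrt (by norm_num)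
  have h5' : Real.sqrt 5 ≠ 0 := sqrt_five_pos.ne'
  rw [hs]
  obtain ⟨T, rfl⟩ : ∃ T, t = r * T / Real.sqrt 5 :=
    ⟨Real.sqrt 5 * t / r, by field_simp⟩
  have e1 : Real.sqrt 5 * (r * T / Real.sqrt 5) / r = T := by field_simp
  rw [e1]
  field_simp
  rw [h5]
  simp only [inDivA, inG, inC, inD, pU, pV]
  ring

/-- The inequality inside. -/
lemma inside_le {r s τ t : ℝ} (hr : 0 < r) (hs : s ^ 2 = 4 * r ^ 2 * (1 - τ)) (h0 : 0 ≤ τ)
    (h1 : τ ≤ 1) :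
    (pU τ / r / Real.sqrt 5 + t * (pM τ / r ^ 2)) ^ 2 * r ^ 2
      + (pV τ / r / Real.sqrt 5 + t * (pN τ / r ^ 2)) ^ 2 * s ^ 2
      + 2 * t * (inDivA τ / (Real.sqrt 5 * r)) + t ^ 2 * (inD τ / r ^ 2)
    ≤ 1 + τ * inG τ / 5 := by
  rw [inside_eq hr hs]
  have h := mul_nonpos_of_nonpos_of_nonneg (inC_sign h0 h1)
    (sq_nonneg (Real.sqrt 5 * t / r - τ))
  linarith

/-- Equality on the graph of the cone. -/
lemma inside_tight {r s τ : ℝ} (hr : 0 < r) (hs : s ^ 2 = 4 * r ^ 2 * (1 - τ)) :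
    (pU τ / r / Real.sqrt 5 + r * τ / Real.sqrt 5 * (pM τ / r ^ 2)) ^ 2 * r ^ 2
      + (pV τ / r / Real.sqrt 5 + r * τ / Real.sqrt 5 * (pN τ / r ^ 2)) ^ 2 * s ^ 2
      + 2 * (r * τ / Real.sqrt 5) * (inDivA τ / (Real.sqrt 5 * r))
      + (r * τ / Real.sqrt 5) ^ 2 * (inD τ / r ^ 2)
    = 1 + τ * inG τ / 5 := by
  rw [inside_eq hr hs]
  have h5' : Real.sqrt 5 ≠ 0 := sqrt_five_pos.ne'
  have e1 : Real.sqrt 5 * (r * τ / Real.sqrt 5) / r - τ = 0 := by field_simp; ring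
  rw [e1]
  ring

/-- The coefficient of the gradient of the cone along `y`. -/
lemma inside_grad_y {r τ : ℝ} (hr : 0 < r) :
    pU τ / r / Real.sqrt 5 + r * τ / Real.sqrt 5 * (pM τ / r ^ 2)
      = (2 - τ) / (Real.sqrt 5 * r) := by
  have h5' : Real.sqrt 5 ≠ 0 := sqrt_five_pos.ne'
  simp only [pU]
  field_simp
  ring

/-- The coefficient of the gradient of the cone along `z`. -/
lemma inside_grad_z {r τ : ℝ} (hr : 0 < r) :
    pV τ / r / Real.sqrt 5 + r * τ / Real.sqrt 5 * (pN τ / r ^ 2)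
      = -(1 / 2) / (Real.sqrt 5 * r) := by
  have h5' : Real.sqrt 5 ≠ 0 := sqrt_five_pos.ne'
  simp only [pV]
  field_simp
  ring

/-- The inequality outside. -/
lemma outside_le {r s e t : ℝ} (hs : 0 < s) (hr : r ^ 2 = s ^ 2 * (1 / 4 - e)) (h0 : 0 ≤ e)
    (h1 : e ≤ 1 / 4) (ht : 0 ≤ t) :
    (qP e / s / Real.sqrt 5 + t * (qM e / s ^ 2)) ^ 2 * r ^ 2
      + (qQ e / s / Real.sqrt 5 + t * (qN e / s ^ 2)) ^ 2 * s ^ 2
      + 2 * t * (outDivA e / (Real.sqrt 5 * s)) + t ^ 2 * (outD e / s ^ 2) ≤ 1 := by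
  have h5 : Real.sqrt 5 ^ 2 = 5 := Real.sq_sqrt (by norm_num)
  have h5' : Real.sqrt 5 ≠ 0 := sqrt_five_pos.ne'
  rw [hr]
  obtain ⟨T, hT, rfl⟩ : ∃ T, 0 ≤ T ∧ t = s * T / Real.sqrt 5 :=
    ⟨Real.sqrt 5 * t / s, by positivity, by field_simp⟩
  have key : (qP e / s / Real.sqrt 5 + s * T / Real.sqrt 5 * (qM e / s ^ 2)) ^ 2
        * (s ^ 2 * (1 / 4 - e))
      + (qQ e / s / Real.sqrt 5 + s * T / Real.sqrt 5 * (qN e / s ^ 2)) ^ 2 * s ^ 2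
      + 2 * (s * T / Real.sqrt 5) * (outDivA e / (Real.sqrt 5 * s))
      + (s * T / Real.sqrt 5) ^ 2 * (outD e / s ^ 2)
      = 1 - outS e / 5 + 2 * T * outB e / 5 + T ^ 2 * outC e / 5 := by
    field_simp
    rw [h5]
    simp only [outDivA, outD, outB, outC, outS]
    ring
  rw [key]
  have k1 := mul_nonpos_of_nonneg_of_nonpos hT (outB_sign h0 h1)
  have k2 := mul_nonpos_of_nonneg_of_nonpos (sq_nonneg T) (outC_sign h0 h1)
  linarith [outS_sign h0 h1]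

end Vale.Agent.P098.Seven
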