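import Vale.Agent.P098.Seven.Cone

/-!
P098, dimension seven: the one-variable inequalities of the calibration.

Inside, with `s = 1 - τ`: `inC` is `ρ² (div K + |K|²)` and `τ inG / 5` is the gap `G`.
Outside, with `h = 1/4 - e`: `outC` is `σ² (div K + |K|²)`, `outB` is `√5 σ (div a + a K)` and
`outS` is `5 (1 - |a|²)`.
-/

namespace Vale.Agent.P098.Seven

/-- The derivative of `pM`. -/
noncomputable def pM' (τ : ℝ) : ℝ := -12 / 25 - 14 / 25 * τ

/-- The derivative of `pN`. -/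
noncomputable def pN' (τ : ℝ) : ℝ := -9 / 25 - 12 / 25 * τ

/-- The derivative of `qM`. -/
noncomputable def qM' (e : ℝ) : ℝ := -223 / 25 - 396 / 25 * e - 1542 / 5 * e ^ 2

/-- The derivative of `qN`. -/
noncomputable def qN' (e : ℝ) : ℝ := 251 / 25 + 614 / 5 * e - 1359 / 5 * e ^ 2

/-- The derivative of `qP`. -/
noncomputable def qP' (e : ℝ) : ℝ := 34 / 25 + 276 / 5 * e - 564 / 5 * e ^ 2

/-- The derivative of `qQ`. -/
noncomputable def qQ' (e : ℝ) : ℝ := -153 / 25 + 232 / 5 * e - 1104 / 5 * e ^ 2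

/-- The scaled divergence of `K` inside. -/
noncomputable def inD (τ : ℝ) : ℝ :=
  pM τ + 2 * (1 - τ) * pM' τ + 4 * pN τ - 2 * (1 - τ) * pN' τ

/-- The scaled Riccati expression inside. -/
noncomputable def inC (τ : ℝ) : ℝ := inD τ + pM τ ^ 2 + 4 * (1 - τ) * pN τ ^ 2

/-- The scaled gap inside. -/
noncomputable def inG (τ : ℝ) : ℝ :=
  -(5 - τ) - 2 * ((2 - τ) * pM τ - 2 * (1 - τ) * pN τ) - τ * inD τ

/-- The scaled Riccati expression outside. -/
noncomputable def outC (e : ℝ) : ℝ :=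
  3 * qM e - 2 * (1 / 4 - e) * qM' e + 2 * qN e + 2 * (1 / 4 - e) * qN' e
    + (1 / 4 - e) * qM e ^ 2 + qN e ^ 2

/-- The scaled cross term outside. -/
noncomputable def outB (e : ℝ) : ℝ :=
  3 * qP e - 2 * (1 / 4 - e) * qP' e + 3 * qQ e + 2 * (1 / 4 - e) * qQ' e
    + (1 / 4 - e) * qP e * qM e + qQ e * qN e

/-- The scaled defect of `|a| ≤ 1` outside. -/
noncomputable def outS (e : ℝ) : ℝ := 5 - (1 / 4 - e) * qP e ^ 2 - qQ e ^ 2

end Vale.Agent.P098.Seven
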