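import Vale.Agent.P098.Seven.Pointwise

/-!
P098, dimension seven: the fields in the two regions `σ < 2 ρ` and `2 ρ < σ`, the gap, and the
calibration inequalities there from the values of the divergences.
-/

open MeasureTheory
open scoped Topology NNReal

namespace Vale.Agent.P098.Seven

/-- The gap of the calibration. -/
noncomputable def gap (x : Euc 7) : ℝ :=
  if 0 < cone x then hatT x * inG (hatT x) / 5 else 0

lemma rhoY_nonneg (x : Euc 7) : 0 ≤ rhoY x := norm_nonneg _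

lemma sigZ_nonneg (x : Euc 7) : 0 ≤ sigZ x := norm_nonneg _

lemma rhoY_sq (x : Euc 7) :
    rhoY x ^ 2 = ∑ i : Fin 7, if i.val < 3 then x i ^ 2 else 0 := by
  rw [rhoY, yPart, EuclideanSpace.norm_sq_eq]
  refine Finset.sum_congr rfl fun i _ => ?_
  by_cases h : i.val < 3 <;> simp [h]

lemma sigZ_sq (x : Euc 7) :
    sigZ x ^ 2 = ∑ i : Fin 7, if i.val < 3 then 0 else x i ^ 2 := by
  rw [sigZ, zPart, EuclideanSpace.norm_sq_eq]
  refine Finset.sum_congr rfl fun i _ => ?_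
  by_cases h : i.val < 3 <;> simp [h]

/-- The length of a field of the form `(p y, q z)`. -/
lemma sum_split_sq (p q : ℝ) (x : Euc 7) :
    ∑ i : Fin 7, ((if i.val < 3 then p else q) * x i) ^ 2
      = p ^ 2 * rhoY x ^ 2 + q ^ 2 * sigZ x ^ 2 := by
  rw [rhoY_sq, sigZ_sq, Finset.mul_sum, Finset.mul_sum, ← Finset.sum_add_distrib]
  refine Finset.sum_congr rfl fun i _ => ?_
  by_cases h : i.val < 3 <;> simp [h, mul_pow]

lemma sum_field_sq (t : ℝ) (x : Euc 7) :
    ∑ i, (fieldA i x + t * fieldK i x) ^ 2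
      = (aY x + t * kY x) ^ 2 * rhoY x ^ 2 + (aZ x + t * kZ x) ^ 2 * sigZ x ^ 2 := by
  rw [← sum_split_sq]
  refine Finset.sum_congr rfl fun i _ => ?_
  rw [fieldA, fieldK]
  by_cases h : i.val < 3 <;> simp [h] <;> ring

lemma inside_values {x : Euc 7} (h : sigZ x < 2 * rhoY x) :
    0 < rhoY x ∧ 0 ≤ hatT x ∧ hatT x ≤ 1 ∧
      sigZ x ^ 2 = 4 * rhoY x ^ 2 * (1 - hatT x) ∧
      aY x = pU (hatT x) / rhoY x / Real.sqrt 5 ∧ aZ x = pV (hatT x) / rhoY x / Real.sqrt 5 ∧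
      kY x = pM (hatT x) / rhoY x ^ 2 ∧ kZ x = pN (hatT x) / rhoY x ^ 2 := by
  have hr : 0 < rhoY x := by linarith [sigZ_nonneg x]
  have hR : hatR x = rhoY x := max_eq_left (by linarith)
  have hS : hatS x = 2 * rhoY x := max_eq_right h.le
  have hT : hatT x = 1 - sigZ x ^ 2 / (4 * rhoY x ^ 2) := by rw [hatT, hR]
  have hE : hatE x = 0 := by
    rw [hatE, hS]
    field_simp
    ring
  have hsq : sigZ x ^ 2 ≤ 4 * rhoY x ^ 2 := by
    nlinarith [pow_le_pow_left₀ (sigZ_nonneg x) h.le 2]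
  refine ⟨hr, ?_, ?_, ?_, ?_, ?_, ?_, ?_⟩
  · rw [hT, sub_nonneg, div_le_one (by positivity)]
    exact hsq
  · rw [hT]
    linarith [div_nonneg (sq_nonneg (sigZ x)) (by positivity : 0 ≤ 4 * rhoY x ^ 2)]
  · rw [hT]
    field_simp
    ring
  all_goals simp [aY, aZ, kY, kZ, hR, hE, qP, qQ, qM, qN]
  all_goals norm_num

lemma outside_values {x : Euc 7} (h : 2 * rhoY x < sigZ x) :
    0 < sigZ x ∧ 0 ≤ hatE x ∧ hatE x ≤ 1 / 4 ∧
      rhoY x ^ 2 = sigZ x ^ 2 * (1 / 4 - hatE x) ∧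
      aY x = qP (hatE x) / sigZ x / Real.sqrt 5 ∧ aZ x = qQ (hatE x) / sigZ x / Real.sqrt 5 ∧
      kY x = qM (hatE x) / sigZ x ^ 2 ∧ kZ x = qN (hatE x) / sigZ x ^ 2 := by
  have hs : 0 < sigZ x := by linarith [rhoY_nonneg x]
  have hR : hatR x = sigZ x / 2 := max_eq_right (by linarith)
  have hS : hatS x = sigZ x := max_eq_left h.le
  have hT : hatT x = 0 := by
    rw [hatT, hR]
    field_simp
    ring
  have hE : hatE x = 1 / 4 - rhoY x ^ 2 / sigZ x ^ 2 := by rw [hatE, hS]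
  have hsq : (2 * rhoY x) ^ 2 ≤ sigZ x ^ 2 :=
    pow_le_pow_left₀ (by linarith [rhoY_nonneg x]) h.le 2
  refine ⟨hs, ?_, ?_, ?_, ?_, ?_, ?_, ?_⟩
  · rw [hE, sub_nonneg, div_le_iff₀ (by positivity)]
    linarith
  · rw [hE]
    linarith [div_nonneg (sq_nonneg (rhoY x)) (sq_nonneg (sigZ x))]
  · rw [hE]
    field_simp
    ring
  all_goals simp only [aY, aZ, kY, kZ, hR, hS, hT, pU, pV, pM, pN]
  all_goals field_simp
  all_goals ring

lemma cone_eq_inside {x : Euc 7} (h : sigZ x < 2 * rhoY x) :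
    cone x = rhoY x * hatT x / Real.sqrt 5 ∧ 0 < cone x := by
  obtain ⟨hr, h0, -, hsq, -⟩ := inside_values h
  have h1 : 0 < hatT x := by
    by_contra hc
    have h2 : hatT x = 0 := le_antisymm (not_lt.1 hc) h0
    rw [h2, sub_zero, mul_one] at hsq
    nlinarith [sigZ_nonneg x]
  have e : rhoY x - sigZ x ^ 2 / (4 * rhoY x) = rhoY x * hatT x := by
    rw [hsq]
    field_simp
    ring
  have hp : 0 < rhoY x * hatT x := mul_pos hr h1
  rw [cone, e, max_eq_left hp.le]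
  exact ⟨rfl, div_pos hp sqrt_five_pos⟩

lemma cone_eq_outside {x : Euc 7} (h : 2 * rhoY x ≤ sigZ x) : cone x = 0 := by
  rw [cone, max_eq_right, zero_div]
  rcases (rhoY_nonneg x).eq_or_lt with h0 | h0
  · simp [← h0]
  · rw [sub_nonpos, le_div_iff₀ (by positivity)]
    nlinarith [pow_le_pow_left₀ (by positivity) h 2]

lemma gap_nonneg' (x : Euc 7) : 0 ≤ gap x := by
  rw [gap]
  split_ifs with hx
  · have h : sigZ x < 2 * rhoY x := by
      by_contra hc
      rw [cone_eq_outside (not_lt.1 hc)] at hx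
      exact lt_irrefl 0 hx
    obtain ⟨-, h0, h1, -⟩ := inside_values h
    exact gap_nonneg h0 h1
  · exact le_rfl

/-- The calibration inequality inside. -/
lemma below_inside {x : Euc 7} (h : sigZ x < 2 * rhoY x)
    (hA : ∑ i, pd i (fieldA i) x = inDivA (hatT x) / (Real.sqrt 5 * rhoY x))
    (hK : ∑ i, pd i (fieldK i) x = inD (hatT x) / rhoY x ^ 2) (t : ℝ) :
    (∑ i, (fieldA i x + t * fieldK i x) ^ 2) + 2 * t * (∑ i, pd i (fieldA i) x)
      + t ^ 2 * (∑ i, pd i (fieldK i) x) ≤ 1 + gap x := by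
  obtain ⟨hr, h0, h1, hsq, e1, e2, e3, e4⟩ := inside_values h
  rw [sum_field_sq, hA, hK, e1, e2, e3, e4, gap, if_pos (cone_eq_inside h).2]
  exact inside_le hr hsq h0 h1

/-- Equality on the graph. -/
lemma tight_inside {x : Euc 7} (h : sigZ x < 2 * rhoY x)
    (hA : ∑ i, pd i (fieldA i) x = inDivA (hatT x) / (Real.sqrt 5 * rhoY x))
    (hK : ∑ i, pd i (fieldK i) x = inD (hatT x) / rhoY x ^ 2) :
    (∑ i, (fieldA i x + cone x * fieldK i x) ^ 2) + 2 * cone x * (∑ i, pd i (fieldA i) x)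
      + cone x ^ 2 * (∑ i, pd i (fieldK i) x) = 1 + gap x := by
  obtain ⟨hr, h0, h1, hsq, e1, e2, e3, e4⟩ := inside_values h
  rw [sum_field_sq, hA, hK, e1, e2, e3, e4, gap, if_pos (cone_eq_inside h).2,
    (cone_eq_inside h).1]
  exact inside_tight hr hsq

/-- The fields on the graph are the gradient of the cone. -/
lemma field_eq_grad {x : Euc 7} (h : sigZ x < 2 * rhoY x) (i : Fin 7) :
    fieldA i x + cone x * fieldK i x
      = (if i.val < 3 then (2 - hatT x) / (Real.sqrt 5 * rhoY x)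
          else -(1 / 2) / (Real.sqrt 5 * rhoY x)) * x i := by
  obtain ⟨hr, h0, h1, hsq, e1, e2, e3, e4⟩ := inside_values h
  rw [fieldA, fieldK, (cone_eq_inside h).1, e1, e2, e3, e4]
  by_cases hi : i.val < 3
  · simp only [hi, if_true]
    rw [← inside_grad_y (τ := hatT x) hr]
    ring
  · simp only [hi, if_false]
    rw [← inside_grad_z (τ := hatT x) hr]
    ring

/-- The calibration inequality outside. -/
lemma below_outside {x : Euc 7} (h : 2 * rhoY x < sigZ x)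
    (hA : ∑ i, pd i (fieldA i) x = outDivA (hatE x) / (Real.sqrt 5 * sigZ x))
    (hK : ∑ i, pd i (fieldK i) x = outD (hatE x) / sigZ x ^ 2) {t : ℝ} (ht : 0 ≤ t) :
    (∑ i, (fieldA i x + t * fieldK i x) ^ 2) + 2 * t * (∑ i, pd i (fieldA i) x)
      + t ^ 2 * (∑ i, pd i (fieldK i) x) ≤ 1 + gap x := by
  obtain ⟨hs, h0, h1, hsq, e1, e2, e3, e4⟩ := outside_values h
  rw [sum_field_sq, hA, hK, e1, e2, e3, e4]
  linarith [outside_le hs hsq h0 h1 ht, gap_nonneg' x]

end Vale.Agent.P098.Seven
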